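import Crest.Agent.R225.LAbs1

/-!
Row 225, lower bound: the abstract second moment lemma.
-/

set_option autoImplicit false

open Finset

namespace Crest.Agent.R225

variable {U : Type*} [Fintype U] [DecidableEq U] {X : Type*}

omit [Fintype U] in
lemma disjoint_iff_of_inter {ξ η S B : Finset U} (h : ξ ∩ S = η ∩ S) (hB : B ⊆ S) :
    Disjoint ξ B ↔ Disjoint η B := by
  have key : ∀ u ∈ B, (u ∈ ξ ↔ u ∈ η) := by
    intro u hu
    have h1 : u ∈ ξ ∩ S ↔ u ∈ η ∩ S := by rw [h]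
    simpa [hB hu] using h1
  simp only [Finset.disjoint_right]
  exact ⟨fun h1 u hu => fun h2 => h1 hu ((key u hu).2 h2),
    fun h1 u hu => fun h2 => h1 hu ((key u hu).1 h2)⟩

/-- the event attached to a single test point -/
lemma exists_event {π : U → ℝ} {ℓ D g : ℝ} (hℓ : 1 ≤ ℓ) (hD : 1 ≤ D) (hDℓ : D ≤ Real.exp ℓ)
    (hg : 1 ≤ g) (hDg : D ≤ g ^ 2) (h0 : ∀ u, 0 ≤ π u) (h1 : ∀ u, π u ≤ Real.exp (-(4 * ℓ)))
    (Y : Finset X) (A : X → Finset U)
    (ha : ∀ x ∈ Y, Real.exp (-ℓ) ≤ ms π (A x)) (ha1 : ∀ x ∈ Y, ms π (A x) ≤ 1)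
    (hsum : ∑ x ∈ Y, (3 - Real.log (ms π (A x))) ≤ D) :
    ∃ E : Finset U → Prop, (∀ η, E η → ∀ x ∈ Y, ¬ Disjoint η (A x)) ∧
      (∀ ξ η, ξ ∩ Y.biUnion A = η ∩ Y.biUnion A → (E ξ ↔ E η)) ∧
      Real.exp (-(D + 9 * g * ℓ ^ 2)) ≤ bpr π E ∧
      ∀ O ξ, bpr π (fun η => E (mix O ξ η)) ≤
        bpr π E * Real.exp (15 * g * ℓ ^ 2) ^ (ξ ∩ O).card := by
  classical
  have hg0 : 0 < g := by linarith
  have hπ1 : ∀ u, π u ≤ 1 := fun u => (h1 u).trans (Real.exp_le_one_iff.2 (by linarith))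
  have hapos : ∀ x ∈ Y, 0 < ms π (A x) := fun x hx => (Real.exp_pos _).trans_le (ha x hx)
  have hlog : ∀ x ∈ Y, 3 ≤ 3 - Real.log (ms π (A x)) := fun x hx => by
    linarith [Real.log_nonpos (hapos x hx).le (ha1 x hx)]
  have hY : 3 * (Y.card : ℝ) ≤ D := by
    refine le_trans ?_ hsum
    calc 3 * (Y.card : ℝ) = ∑ x ∈ Y, (3 : ℝ) := by rw [Finset.sum_const, nsmul_eq_mul]; ring
      _ ≤ _ := Finset.sum_le_sum hlog
  set H := Y.filter fun x => g ≤ ∑ x' ∈ Y, ms π (A x ∩ A x') * (ms π (A x'))⁻¹ with hH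
  set L := Y.filter fun x => ¬ g ≤ ∑ x' ∈ Y, ms π (A x ∩ A x') * (ms π (A x'))⁻¹ with hL
  set B := trim π g Y A with hB
  have hBA : ∀ x, B x ⊆ A x := trim_subset π g Y A
  have hF : Real.exp (-(9 * g * ℓ ^ 2)) ≤ bpr π fun η => ∀ x ∈ H, ¬ Disjoint η (A x) :=
    heavy_ge hℓ hD hDℓ hg hDg h0 h1 Y A hY ha H (Finset.filter_subset _ _)
      fun x hx => (Finset.mem_filter.1 hx).2
  have hhit : ∀ x ∈ L, ms π (A x) / 4 ≤ bpr π fun η => ¬ Disjoint η (B x) := by
    intro x hx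
    have hx' := Finset.mem_filter.1 hx
    have h2 := ms_trim_ge h0 hg0 Y A hapos x (not_le.1 hx'.2).le
    have h3 := hit_ge h0 hπ1 (B x) ((ms_mono h0 (hBA x)).trans (ha1 x hx'.1))
    linarith
  have hFmono : ∀ ξ η : Finset U, ξ ⊆ η → (∀ x ∈ H, ¬ Disjoint ξ (A x)) →
      ∀ x ∈ H, ¬ Disjoint η (A x) := fun ξ η h hξ x hx => hit_mono h (hξ x hx)
  have hGmono : ∀ (M : Finset X) (ξ η : Finset U), ξ ⊆ η → (∀ x ∈ M, ¬ Disjoint ξ (B x)) →
      ∀ x ∈ M, ¬ Disjoint η (B x) := fun M ξ η h hξ x hx => hit_mono h (hξ x hx)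
  have hGge : ∀ M : Finset X, ∏ x ∈ M, bpr π (fun η => ¬ Disjoint η (B x)) ≤
      bpr π fun η => ∀ x ∈ M, ¬ Disjoint η (B x) := fun M =>
    bpr_harris_forall h0 hπ1 M (fun x η => ¬ Disjoint η (B x)) fun x ξ η h hξ => hit_mono h hξ
  have he4 : (4 : ℝ) ≤ Real.exp 2 := by
    have h2 : (2 : ℝ) ≤ Real.exp 1 := by linarith [Real.add_one_le_exp 1]
    have : Real.exp 2 = Real.exp 1 * Real.exp 1 := by rw [← Real.exp_add]; norm_num
    nlinarith
  refine ⟨fun η => (∀ x ∈ H, ¬ Disjoint η (A x)) ∧ ∀ x ∈ L, ¬ Disjoint η (B x), ?_, ?_, ?_, ?_⟩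
  · rintro η ⟨h2, h3⟩ x hx
    by_cases hc : g ≤ ∑ x' ∈ Y, ms π (A x ∩ A x') * (ms π (A x'))⁻¹
    · exact h2 x (Finset.mem_filter.2 ⟨hx, hc⟩)
    · exact fun hd => h3 x (Finset.mem_filter.2 ⟨hx, hc⟩)
        (Finset.disjoint_of_subset_right (hBA x) hd)
  · intro ξ η h
    have hsub : ∀ x ∈ Y, A x ⊆ Y.biUnion A := fun x hx => Finset.subset_biUnion_of_mem A hx
    refine and_congr (forall₂_congr fun x hx => ?_) (forall₂_congr fun x hx => ?_)
    · rw [disjoint_iff_of_inter h (hsub x (Finset.mem_filter.1 hx).1)]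
    · rw [disjoint_iff_of_inter h ((hBA x).trans (hsub x (Finset.mem_filter.1 hx).1))]
  · refine le_trans ?_ (bpr_harris h0 hπ1 hFmono (hGmono L))
    have h2 : Real.exp (-D) ≤ bpr π fun η => ∀ x ∈ L, ¬ Disjoint η (B x) := by
      refine le_trans ?_ (hGge L)
      calc Real.exp (-D) ≤ Real.exp (∑ x ∈ L, -(3 - Real.log (ms π (A x)))) := by
            rw [Real.exp_le_exp, Finset.sum_neg_distrib, neg_le_neg_iff]
            refine le_trans ?_ hsum
            exact Finset.sum_le_sum_of_subset_of_nonneg (Finset.filter_subset _ _)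
              fun x hx _ => by linarith [hlog x hx]
        _ = ∏ x ∈ L, Real.exp (-(3 - Real.log (ms π (A x)))) := Real.exp_sum _ _
        _ ≤ _ := by
            refine Finset.prod_le_prod (fun x _ => (Real.exp_pos _).le) fun x hx => ?_
            refine le_trans ?_ (hhit x hx)
            have hp := hapos x (Finset.mem_filter.1 hx).1
            rw [neg_sub, Real.exp_sub, Real.exp_log hp]
            refine div_le_div_of_nonneg_left hp.le (by norm_num) ?_
            exact he4.trans (Real.exp_le_exp.2 (by norm_num))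
    calc Real.exp (-(D + 9 * g * ℓ ^ 2)) = Real.exp (-(9 * g * ℓ ^ 2)) * Real.exp (-D) := by
          rw [← Real.exp_add]; ring_nf
      _ ≤ _ := mul_le_mul hF h2 (Real.exp_pos _).le (bpr_nonneg h0 hπ1 _)
  · intro O ξ
    rcases Nat.eq_zero_or_pos (ξ ∩ O).card with hk | hk
    · rw [hk, pow_zero, mul_one]
      have he : ξ ∩ O = ∅ := Finset.card_eq_zero.1 hk
      refine bpr_mono h0 hπ1 fun η hη => ?_
      have hsub : mix O ξ η ⊆ η := by
        unfold mix
        rw [he, Finset.empty_union]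
        exact Finset.sdiff_subset
      exact ⟨hFmono _ _ hsub hη.1, hGmono L _ _ hsub hη.2⟩
    · set k := (ξ ∩ O).card with hkdef
      set L₂ := L.filter fun x => ¬ Disjoint (ξ ∩ O) (B x) with hL₂
      set L₁ := L.filter fun x => Disjoint (ξ ∩ O) (B x) with hL₁
      have hstep : bpr π (fun η => (∀ x ∈ H, ¬ Disjoint (mix O ξ η) (A x)) ∧
          ∀ x ∈ L, ¬ Disjoint (mix O ξ η) (B x)) ≤
          bpr π fun η => ∀ x ∈ L₁, ¬ Disjoint η (B x) := by
        refine bpr_mono h0 hπ1 fun η hη x hx hd => ?_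
        have hx' := Finset.mem_filter.1 hx
        apply hη.2 x hx'.1
        unfold mix
        rw [Finset.disjoint_union_left]
        exact ⟨hx'.2, Finset.disjoint_of_subset_left Finset.sdiff_subset hd⟩
      refine hstep.trans ?_
      have hcard : (L₂.card : ℝ) ≤ 2 * g * k := by
        have hsub : L₂ ⊆ (ξ ∩ O).biUnion fun u => Y.filter fun x => u ∈ B x := by
          intro x hx
          have hx' := Finset.mem_filter.1 hx
          obtain ⟨u, hu1, hu2⟩ := Finset.not_disjoint_iff.1 hx'.2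
          exact Finset.mem_biUnion.2 ⟨u, hu1,
            Finset.mem_filter.2 ⟨(Finset.mem_filter.1 hx'.1).1, hu2⟩⟩
        calc (L₂.card : ℝ) ≤ (((ξ ∩ O).biUnion fun u => Y.filter fun x => u ∈ B x).card : ℝ) :=
              Nat.cast_le.2 (Finset.card_le_card hsub)
          _ ≤ ((∑ u ∈ ξ ∩ O, (Y.filter fun x => u ∈ B x).card : ℕ) : ℝ) :=
              Nat.cast_le.2 Finset.card_biUnion_le
          _ = ∑ u ∈ ξ ∩ O, ((Y.filter fun x => u ∈ B x).card : ℝ) := Nat.cast_sum _ _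
          _ ≤ ∑ u ∈ ξ ∩ O, 2 * g :=
              Finset.sum_le_sum fun u _ => card_trim_le π hg0.le Y A u
          _ = 2 * g * k := by rw [Finset.sum_const, nsmul_eq_mul]; ring
      have hG₂ : Real.exp (-(6 * g * ℓ ^ 2 * k)) ≤ bpr π fun η => ∀ x ∈ L₂, ¬ Disjoint η (B x) := by
        refine le_trans ?_ (hGge L₂)
        calc Real.exp (-(6 * g * ℓ ^ 2 * k)) ≤ Real.exp (L₂.card * -(3 * ℓ)) := by
              rw [Real.exp_le_exp]
              have h3 : (0 : ℝ) ≤ k := Nat.cast_nonneg _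
              have h4 : (L₂.card : ℝ) * (3 * ℓ) ≤ 2 * g * k * (3 * ℓ) :=
                mul_le_mul_of_nonneg_right hcard (by linarith)
              have h5 : 0 ≤ g * k * ℓ := by positivity
              nlinarith
          _ = ∏ x ∈ L₂, Real.exp (-(3 * ℓ)) := by
              rw [Finset.prod_const, Real.exp_nat_mul]
          _ ≤ _ := by
              refine Finset.prod_le_prod (fun x _ => (Real.exp_pos _).le) fun x hx => ?_
              have hx' := (Finset.mem_filter.1 hx).1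
              refine le_trans ?_ (hhit x hx')
              have h3 := ha x (Finset.mem_filter.1 hx').1
              have h4 : Real.exp (-(3 * ℓ)) * Real.exp (2 * ℓ) = Real.exp (-ℓ) := by
                rw [← Real.exp_add]; ring_nf
              have h5 : (4 : ℝ) ≤ Real.exp (2 * ℓ) := he4.trans (Real.exp_le_exp.2 (by linarith))
              have h6 := Real.exp_pos (-(3 * ℓ))
              nlinarith
      have hF' : Real.exp (-(9 * g * ℓ ^ 2 * k)) ≤ bpr π fun η => ∀ x ∈ H, ¬ Disjoint η (A x) := by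
        refine le_trans (Real.exp_le_exp.2 ?_) hF
        have h3 : (1 : ℝ) ≤ k := by exact_mod_cast hk
        have h4 : 0 ≤ g * ℓ ^ 2 := by positivity
        nlinarith
      have hH1 := bpr_harris h0 hπ1 (hGmono L₁) (hGmono L₂)
      have hH2 := bpr_harris h0 hπ1 hFmono (hGmono L)
      have hH3 : (bpr π fun η => (∀ x ∈ L₁, ¬ Disjoint η (B x)) ∧ ∀ x ∈ L₂, ¬ Disjoint η (B x)) ≤
          bpr π fun η => ∀ x ∈ L, ¬ Disjoint η (B x) := by
        refine bpr_mono h0 hπ1 fun η hη x hx => ?_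
        by_cases hc : Disjoint (ξ ∩ O) (B x)
        · exact hη.1 x (Finset.mem_filter.2 ⟨hx, hc⟩)
        · exact hη.2 x (Finset.mem_filter.2 ⟨hx, hc⟩)
      set p₁ := bpr π fun η => ∀ x ∈ L₁, ¬ Disjoint η (B x) with hp₁
      have hp₁0 : 0 ≤ p₁ := bpr_nonneg h0 hπ1 _
      have h7 : Real.exp (-(9 * g * ℓ ^ 2 * k)) * (p₁ * Real.exp (-(6 * g * ℓ ^ 2 * k))) ≤
          bpr π fun η => (∀ x ∈ H, ¬ Disjoint η (A x)) ∧ ∀ x ∈ L, ¬ Disjoint η (B x) := by
        refine le_trans ?_ hH2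
        refine mul_le_mul hF' ?_ (by positivity) (bpr_nonneg h0 hπ1 _)
        exact (mul_le_mul_of_nonneg_left hG₂ hp₁0).trans (hH1.trans hH3)
      have h8 : p₁ = (Real.exp (-(9 * g * ℓ ^ 2 * k)) * (p₁ * Real.exp (-(6 * g * ℓ ^ 2 * k)))) *
          Real.exp (15 * g * ℓ ^ 2) ^ k := by
        rw [← Real.exp_nat_mul]
        have : Real.exp (-(9 * g * ℓ ^ 2 * k)) * Real.exp (-(6 * g * ℓ ^ 2 * k)) *
            Real.exp (k * (15 * g * ℓ ^ 2)) = 1 := by
          rw [← Real.exp_add, ← Real.exp_add, ← Real.exp_zero]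
          congr 1
          ring
        calc p₁ = p₁ * 1 := (mul_one _).symm
          _ = _ := by rw [← this]; ring
      rw [h8]
      exact mul_le_mul_of_nonneg_right h7 (by positivity)

/-- correlation of two events with small overlap -/
lemma pair_le {π : U → ℝ} (h0 : ∀ u, 0 ≤ π u) (h1 : ∀ u, π u ≤ 1) {E E' : Finset U → Prop}
    {S S' : Finset U} {Λ : ℝ} (hΛ : 0 ≤ Λ)
    (hE : ∀ ξ η, ξ ∩ S = η ∩ S → (E ξ ↔ E η)) (hE' : ∀ ξ η, ξ ∩ S' = η ∩ S' → (E' ξ ↔ E' η))
    (hc : ∀ O ξ, bpr π (fun η => E (mix O ξ η)) ≤ bpr π E * Λ ^ (ξ ∩ O).card)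
    (hc' : ∀ O ξ, bpr π (fun η => E' (mix O ξ η)) ≤ bpr π E' * Λ ^ (ξ ∩ O).card)
    (hS : ms π (S ∩ S') * Λ ^ 2 ≤ 1 / 2) :
    bpr π (fun η => E η ∧ E' η) ≤ 2 * (bpr π E * bpr π E') := by
  set O := S ∩ S' with hO
  have hp := bpr_nonneg h0 h1 E
  have hp' := bpr_nonneg h0 h1 E'
  unfold bpr at *
  rw [bex_mix π O]
  have hin : ∀ ξ, (bex π fun η => ind (E (mix O ξ η) ∧ E' (mix O ξ η))) ≤
      (bex π (fun η => ind (E η)) * bex π (fun η => ind (E' η))) * (Λ ^ 2) ^ (ξ ∩ O).card := by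
    intro ξ
    simp only [ind_and]
    rw [bex_mul_indep π S (fun η => ind (E (mix O ξ η))) (fun η => ind (E' (mix O ξ η)))]
    · calc _ ≤ (bex π (fun η => ind (E η)) * Λ ^ (ξ ∩ O).card) *
            (bex π (fun η => ind (E' η)) * Λ ^ (ξ ∩ O).card) :=
            mul_le_mul (hc O ξ) (hc' O ξ) (bex_nonneg h0 h1 fun _ => ind_nonneg _) (by positivity)
        _ = _ := by rw [← pow_mul, two_mul, pow_add]; ring
    · intro ζ η
      refine ind_congr (hE _ _ ?_)
      ext u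
      simp only [Finset.mem_inter, mem_mix, hO]
      tauto
    · intro ζ η
      refine ind_congr (hE' _ _ ?_)
      ext u
      simp only [Finset.mem_inter, mem_mix, hO]
      tauto
  refine (bex_mono h0 h1 hin).trans ?_
  rw [bex_const_mul, bex_pow_card_inter, mul_comm 2]
  refine mul_le_mul_of_nonneg_left ?_ (mul_nonneg hp hp')
  calc ∏ u ∈ O, (1 + π u * (Λ ^ 2 - 1)) ≤ ∏ u ∈ O, Real.exp (π u * Λ ^ 2) := by
        refine Finset.prod_le_prod (fun u _ => ?_) fun u _ => ?_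
        · nlinarith [h0 u, h1 u, sq_nonneg Λ]
        · nlinarith [Real.add_one_le_exp (π u * Λ ^ 2), h0 u]
    _ = Real.exp (ms π O * Λ ^ 2) := by rw [← Real.exp_sum, ms, Finset.sum_mul]
    _ ≤ Real.exp (1 / 2) := Real.exp_le_exp.2 hS
    _ ≤ 2 := by
        have h2 := Real.exp_one_lt_three
        have h3 : Real.exp (1 / 2) * Real.exp (1 / 2) = Real.exp 1 := by
          rw [← Real.exp_add]; norm_num
        nlinarith [Real.exp_pos (1 / 2)]

/-- second moment bound -/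
lemma group_le {π : U → ℝ} (h0 : ∀ u, 0 ≤ π u) (h1 : ∀ u, π u ≤ 1) {Q : ℕ}
    (E : Fin Q → Finset U → Prop) {p₀ : ℝ} (hp₀ : 0 < p₀) (hp : ∀ q, p₀ ≤ bpr π (E q))
    (hpair : ∀ q q', q ≠ q' → bpr π (fun η => E q η ∧ E q' η) ≤ 2 * (bpr π (E q) * bpr π (E q')))
    (hQ : p₀⁻¹ ≤ Q) : bpr π (fun η => ∀ q, ¬ E q η) ≤ 2 / 3 := by
  have hQ0 : (0 : ℝ) < Q := (inv_pos.2 hp₀).trans_le hQ
  have hpos : ∀ q, 0 < bpr π (E q) := fun q => hp₀.trans_le (hp q)
  set Z : Finset U → ℝ := fun η => ∑ q, ind (E q η) * (bpr π (E q))⁻¹ with hZ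
  have hEZ : bex π Z = Q := by
    rw [hZ, bex_sum]
    simp only [bex_mul_const]
    calc _ = ∑ q : Fin Q, (1 : ℝ) :=
          Finset.sum_congr rfl fun q _ => mul_inv_cancel₀ (hpos q).ne'
      _ = Q := by simp
  have hEZ2 : bex π (fun η => Z η ^ 2) ≤ 3 * (Q : ℝ) ^ 2 := by
    have h2 : ∀ η, Z η ^ 2 =
        ∑ q, ∑ q', ind (E q η ∧ E q' η) * ((bpr π (E q))⁻¹ * (bpr π (E q'))⁻¹) := by
      intro η
      rw [sq, hZ, Finset.sum_mul_sum]
      refine Finset.sum_congr rfl fun q _ => Finset.sum_congr rfl fun q' _ => ?_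
      rw [ind_and]; ring
    simp only [h2]
    rw [bex_sum]
    simp only [bex_sum, bex_mul_const]
    calc _ ≤ ∑ q : Fin Q, ∑ q' : Fin Q, ((if q = q' then (Q : ℝ) else 0) + 2) := by
          refine Finset.sum_le_sum fun q _ => Finset.sum_le_sum fun q' _ => ?_
          have hq := hpos q
          have hq' := hpos q'
          split_ifs with h
          · subst h
            simp only [and_self]
            have h3 : bex π (fun η => ind (E q η)) * ((bpr π (E q))⁻¹ * (bpr π (E q))⁻¹) =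
                (bpr π (E q))⁻¹ := by
              change bpr π (E q) * _ = _
              field_simp
            rw [h3]
            have : (bpr π (E q))⁻¹ ≤ p₀⁻¹ := inv_anti₀ hp₀ (hp q)
            linarith
          · have h3 := hpair q q' h
            calc _ ≤ 2 * (bpr π (E q) * bpr π (E q')) * ((bpr π (E q))⁻¹ * (bpr π (E q'))⁻¹) :=
                  mul_le_mul_of_nonneg_right h3 (by positivity)
              _ = 0 + 2 := by field_simp; ring
      _ = 3 * (Q : ℝ) ^ 2 := by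
          simp only [Finset.sum_add_distrib, Finset.sum_ite_eq, Finset.mem_univ, if_true,
            Finset.sum_const, Finset.card_univ, Fintype.card_fin, nsmul_eq_mul]
          ring
  have hpt : ∀ η, ind (∀ q, ¬ E q η) ≤
      1 - (2 / (3 * Q)) * Z η + (1 / (3 * Q)) ^ 2 * Z η ^ 2 := by
    intro η
    by_cases h : ∀ q, ¬ E q η
    · have : Z η = 0 := Finset.sum_eq_zero fun q _ => by rw [ind_of_not _ (h q), zero_mul]
      rw [this, ind_of _ h]
      simp
    · rw [ind_of_not _ h]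
      have : 1 - (2 / (3 * Q)) * Z η + (1 / (3 * Q)) ^ 2 * Z η ^ 2 =
          (1 - (1 / (3 * Q)) * Z η) ^ 2 := by ring
      rw [this]
      positivity
  refine (bex_mono h0 h1 hpt).trans ?_
  rw [bex_add, bex_sub, bex_const, bex_const_mul, bex_const_mul, hEZ]
  have h4 : (1 / (3 * (Q : ℝ))) ^ 2 * bex π (fun η => Z η ^ 2) ≤
      (1 / (3 * (Q : ℝ))) ^ 2 * (3 * (Q : ℝ) ^ 2) := mul_le_mul_of_nonneg_left hEZ2 (by positivity)
  have h5 : (1 / (3 * (Q : ℝ))) ^ 2 * (3 * (Q : ℝ) ^ 2) = 1 / 3 := by field_simp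
  have h6 : 2 / (3 * (Q : ℝ)) * Q = 2 / 3 := by field_simp
  linarith

theorem abstract_lemma {π : U → ℝ} {ℓ D g : ℝ} (hℓ : 1 ≤ ℓ) (hD : 1 ≤ D) (hDℓ : D ≤ Real.exp ℓ)
    (hg : 1 ≤ g) (hDg : D ≤ g ^ 2) (h0 : ∀ u, 0 ≤ π u) (h1 : ∀ u, π u ≤ Real.exp (-(4 * ℓ)))
    {I Q : ℕ} (Y : Fin I → Fin Q → Finset X) (A : Fin I → Fin Q → X → Finset U)
    (ha : ∀ i q, ∀ x ∈ Y i q, Real.exp (-ℓ) ≤ ms π (A i q x))
    (ha1 : ∀ i q, ∀ x ∈ Y i q, ms π (A i q x) ≤ 1)
    (hsum : ∀ i q, ∑ x ∈ Y i q, (3 - Real.log (ms π (A i q x))) ≤ D)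
    (hov : ∀ i q q', q ≠ q' → ∀ x ∈ Y i q, ∀ x' ∈ Y i q',
      ms π (A i q x ∩ A i q' x') ≤ Real.exp (-(100 * g * ℓ ^ 2)))
    (hdisj : ∀ i i' q q', i ≠ i' → ∀ x ∈ Y i q, ∀ x' ∈ Y i' q', Disjoint (A i q x) (A i' q' x'))
    (hQ : Real.exp (D + 100 * g * ℓ ^ 2) ≤ Q) :
    bpr π (fun η => ∀ i q, ∃ x ∈ Y i q, Disjoint η (A i q x)) ≤ (2 / 3) ^ I := by
  classical
  have hπ1 : ∀ u, π u ≤ 1 := fun u => (h1 u).trans (Real.exp_le_one_iff.2 (by linarith))
  have hgl : 1 ≤ g * ℓ ^ 2 := by nlinarith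
  choose E hE1 hE2 hE3 hE4 using fun i q =>
    exists_event hℓ hD hDℓ hg hDg h0 h1 (Y i q) (A i q) (ha i q) (ha1 i q) (hsum i q)
  have hcard : ∀ i q, ((Y i q).card : ℝ) ≤ Real.exp ℓ := by
    intro i q
    refine le_trans ?_ ((hsum i q).trans hDℓ)
    rw [Finset.card_eq_sum_ones, Nat.cast_sum]
    refine Finset.sum_le_sum fun x hx => ?_
    have := Real.log_nonpos (ms_nonneg h0 (A i q x)) (ha1 i q x hx)
    simp only [Nat.cast_one]
    linarith
  have hgroup : ∀ i, bpr π (fun η => ∀ q, ¬ E i q η) ≤ 2 / 3 := by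
    intro i
    refine group_le h0 hπ1 (E i) (Real.exp_pos _) (hE3 i) (fun q q' hne => ?_) ?_
    · refine pair_le h0 hπ1 (Real.exp_pos _).le (hE2 i q) (hE2 i q') (hE4 i q) (hE4 i q') ?_
      have hm : ms π ((Y i q).biUnion (A i q) ∩ (Y i q').biUnion (A i q')) ≤
          Real.exp ℓ * (Real.exp ℓ * Real.exp (-(100 * g * ℓ ^ 2))) := by
        have hsub : ∀ u ∈ (Y i q).biUnion (A i q) ∩ (Y i q').biUnion (A i q'),
            π u ≤ ∑ x ∈ Y i q, ∑ x' ∈ Y i q', if u ∈ A i q x ∩ A i q' x' then π u else 0 := by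
          intro u hu
          obtain ⟨hu1, hu2⟩ := Finset.mem_inter.1 hu
          obtain ⟨x, hx, hux⟩ := Finset.mem_biUnion.1 hu1
          obtain ⟨x', hx', hux'⟩ := Finset.mem_biUnion.1 hu2
          have hnn : ∀ z z', 0 ≤ if u ∈ A i q z ∩ A i q' z' then π u else 0 := fun z z' => by
            split_ifs
            · exact h0 u
            · exact le_rfl
          refine le_trans ?_ (Finset.single_le_sum
            (f := fun x => ∑ x' ∈ Y i q', if u ∈ A i q x ∩ A i q' x' then π u else 0)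
            (fun z _ => Finset.sum_nonneg fun z' _ => hnn z z') hx)
          refine le_trans ?_ (Finset.single_le_sum
            (f := fun x' => if u ∈ A i q x ∩ A i q' x' then π u else 0)
            (fun z' _ => hnn x z') hx')
          simp [hux, hux']
        calc _ ≤ ∑ u ∈ (Y i q).biUnion (A i q) ∩ (Y i q').biUnion (A i q'),
              ∑ x ∈ Y i q, ∑ x' ∈ Y i q', if u ∈ A i q x ∩ A i q' x' then π u else 0 :=
              Finset.sum_le_sum hsub
          _ = ∑ x ∈ Y i q, ∑ x' ∈ Y i q',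
              ∑ u ∈ (Y i q).biUnion (A i q) ∩ (Y i q').biUnion (A i q'),
                if u ∈ A i q x ∩ A i q' x' then π u else 0 := by
              rw [Finset.sum_comm]
              exact Finset.sum_congr rfl fun x _ => Finset.sum_comm
          _ ≤ ∑ x ∈ Y i q, ∑ x' ∈ Y i q', Real.exp (-(100 * g * ℓ ^ 2)) := by
              refine Finset.sum_le_sum fun x hx => Finset.sum_le_sum fun x' hx' => ?_
              refine le_trans ?_ (hov i q q' hne x hx x' hx')
              rw [← Finset.sum_filter]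
              exact ms_mono h0 fun u hu => (Finset.mem_filter.1 hu).2
          _ = (Y i q).card * ((Y i q').card * Real.exp (-(100 * g * ℓ ^ 2))) := by
              simp only [Finset.sum_const, nsmul_eq_mul]
          _ ≤ _ := by
              have := hcard i q
              have := hcard i q'
              gcongr
      calc _ ≤ Real.exp ℓ * (Real.exp ℓ * Real.exp (-(100 * g * ℓ ^ 2))) *
            Real.exp (15 * g * ℓ ^ 2) ^ 2 := mul_le_mul_of_nonneg_right hm (by positivity)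
        _ = Real.exp (2 * ℓ - 70 * (g * ℓ ^ 2)) := by
            rw [← Real.exp_nat_mul, ← Real.exp_add, ← Real.exp_add, ← Real.exp_add]
            congr 1
            push_cast
            ring
        _ ≤ Real.exp (-1) := by
            rw [Real.exp_le_exp]
            have : ℓ ≤ g * ℓ ^ 2 := by nlinarith
            linarith
        _ ≤ 1 / 2 := by
            rw [Real.exp_neg, inv_le_comm₀ (Real.exp_pos _) (by norm_num)]
            linarith [Real.add_one_le_exp 1]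
    · rw [← Real.exp_neg, neg_neg]
      refine le_trans (Real.exp_le_exp.2 ?_) hQ
      nlinarith
  calc bpr π (fun η => ∀ i q, ∃ x ∈ Y i q, Disjoint η (A i q x))
      ≤ bpr π (fun η => ∀ i ∈ (Finset.univ : Finset (Fin I)), ∀ q, ¬ E i q η) := by
        refine bpr_mono h0 hπ1 fun η hη i _ q hE => ?_
        obtain ⟨x, hx, hd⟩ := hη i q
        exact hE1 i q η hE x hx hd
    _ = ∏ i : Fin I, bpr π (fun η => ∀ q, ¬ E i q η) := by
        unfold bpr
        simp only [ind_forall]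
        refine bex_prod_indep π Finset.univ
          (fun i => Finset.univ.biUnion fun q => (Y i q).biUnion (A i q))
          (fun i η => ind (∀ q, ¬ E i q η)) (fun i ξ η h => ?_) (fun i j hij => ?_)
        · refine ind_congr (forall_congr' fun q => not_congr (hE2 i q ξ η ?_))
          have hsub : (Y i q).biUnion (A i q) ⊆
              Finset.univ.biUnion fun q => (Y i q).biUnion (A i q) :=
            Finset.subset_biUnion_of_mem (fun q => (Y i q).biUnion (A i q)) (Finset.mem_univ q)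
          rw [← Finset.inter_eq_right.2 hsub, ← Finset.inter_assoc, ← Finset.inter_assoc, h]
        · simp only [Finset.disjoint_biUnion_left, Finset.disjoint_biUnion_right]
          intro q' _ x' hx' q _ x hx
          exact hdisj i j q q' hij x hx x' hx'
    _ ≤ ∏ i : Fin I, (2 / 3 : ℝ) :=
        Finset.prod_le_prod (fun i _ => bpr_nonneg h0 hπ1 _) fun i _ => hgroup i
    _ = (2 / 3) ^ I := by rw [Finset.prod_const, Finset.card_univ, Fintype.card_fin]

end Crest.Agent.R225
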