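import Crest.Agent.R225.LBern

/-!
Row 225, lower bound: hitting probabilities, heavy and light sets.
-/

set_option autoImplicit false

open Finset

namespace Crest.Agent.R225

variable {U : Type*} [Fintype U] [DecidableEq U]

/-- mass of a set -/
noncomputable def ms (π : U → ℝ) (A : Finset U) : ℝ := ∑ u ∈ A, π u

omit [Fintype U] [DecidableEq U] in
lemma ms_nonneg {π : U → ℝ} (h0 : ∀ u, 0 ≤ π u) (A : Finset U) : 0 ≤ ms π A :=
  Finset.sum_nonneg fun u _ => h0 u

omit [Fintype U] [DecidableEq U] in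
lemma ms_mono {π : U → ℝ} (h0 : ∀ u, 0 ≤ π u) {A B : Finset U} (h : A ⊆ B) : ms π A ≤ ms π B :=
  Finset.sum_le_sum_of_subset_of_nonneg h fun u _ _ => h0 u

lemma miss_le {π : U → ℝ} (h1 : ∀ u, π u ≤ 1) (A : Finset U) :
    bpr π (fun η => Disjoint η A) ≤ Real.exp (-ms π A) := by
  rw [bpr_disjoint, ms, ← Finset.sum_neg_distrib, Real.exp_sum]
  refine Finset.prod_le_prod (fun u _ => by linarith [h1 u]) fun u _ => ?_
  linarith [Real.add_one_le_exp (-π u)]

lemma hit_ge {π : U → ℝ} (h0 : ∀ u, 0 ≤ π u) (h1 : ∀ u, π u ≤ 1) (A : Finset U)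
    (hA : ms π A ≤ 1) : ms π A / 2 ≤ bpr π (fun η => ¬ Disjoint η A) := by
  rw [bpr_not]
  have h := miss_le h1 A
  have ha := ms_nonneg h0 A
  set a := ms π A
  have h2 : Real.exp (-a) ≤ 1 - a / 2 := by
    have h3 := Real.add_one_le_exp a
    have h4 : Real.exp (-a) * Real.exp a = 1 := by rw [← Real.exp_add]; simp
    have h5 := Real.exp_pos (-a)
    have h6 : Real.exp (-a) * (a + 1) ≤ 1 := by nlinarith
    by_contra hc
    push Not at hc
    nlinarith
  linarith

omit [Fintype U] [DecidableEq U] in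
lemma hit_mono {A ξ η : Finset U} (h : ξ ⊆ η) (hξ : ¬ Disjoint ξ A) : ¬ Disjoint η A :=
  fun hd => hξ (Finset.disjoint_of_subset_left h hd)

variable {X : Type*}

omit [Fintype U] in
lemma sum_mul_tilt (π : U → ℝ) (Y : Finset X) (A : X → Finset U) (c : X → ℝ) (B : Finset U) :
    ∑ u ∈ B, π u * ∑ x ∈ Y with u ∈ A x, c x = ∑ x ∈ Y, ms π (B ∩ A x) * c x := by
  simp only [Finset.sum_filter, Finset.mul_sum]
  rw [Finset.sum_comm]
  refine Finset.sum_congr rfl fun x _ => ?_
  rw [ms, Finset.sum_mul, ← Finset.filter_mem_eq_inter, Finset.sum_filter]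
  refine Finset.sum_congr rfl fun u _ => ?_
  split_ifs <;> simp

/-- all heavy sets are hit simultaneously with not too small probability -/
lemma heavy_ge {π : U → ℝ} {ℓ D g : ℝ} (hℓ : 1 ≤ ℓ) (hD : 1 ≤ D) (hDℓ : D ≤ Real.exp ℓ)
    (hg : 1 ≤ g) (hDg : D ≤ g ^ 2) (h0 : ∀ u, 0 ≤ π u) (h1 : ∀ u, π u ≤ Real.exp (-(4 * ℓ)))
    (Y : Finset X) (A : X → Finset U) (hY : 3 * (Y.card : ℝ) ≤ D)
    (ha : ∀ x ∈ Y, Real.exp (-ℓ) ≤ ms π (A x)) (H : Finset X) (hHY : H ⊆ Y)
    (hH : ∀ x ∈ H, g ≤ ∑ x' ∈ Y, ms π (A x ∩ A x') * (ms π (A x'))⁻¹) :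
    Real.exp (-(9 * g * ℓ ^ 2)) ≤ bpr π fun η => ∀ x ∈ H, ¬ Disjoint η (A x) := by
  have hg0 : 0 < g := by linarith
  have hapos : ∀ x ∈ Y, 0 < ms π (A x) := fun x hx => (Real.exp_pos _).trans_le (ha x hx)
  set κ := Real.log (2 * D) / g with hκ
  have hlog0 : 0 ≤ Real.log (2 * D) := Real.log_nonneg (by linarith)
  have hlog1 : Real.log (2 * D) ≤ 2 * ℓ := by
    rw [Real.log_le_iff_le_exp (by linarith)]
    have h2 : (2 : ℝ) ≤ Real.exp ℓ := by linarith [Real.add_one_le_exp ℓ]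
    have : Real.exp (2 * ℓ) = Real.exp ℓ * Real.exp ℓ := by rw [← Real.exp_add]; ring_nf
    rw [this]
    nlinarith
  have hκ0 : 0 ≤ κ := div_nonneg hlog0 hg0.le
  have hκg : κ * g = Real.log (2 * D) := by rw [hκ]; field_simp
  have hκ1 : κ ≤ 2 * ℓ := by nlinarith
  set r : U → ℝ := fun u => κ * ∑ x ∈ Y with u ∈ A x, (ms π (A x))⁻¹ with hr
  have hr0 : ∀ u, 0 ≤ r u := fun u => mul_nonneg hκ0
    (Finset.sum_nonneg fun x hx => inv_nonneg.2 (ms_nonneg h0 _))
  have hr1 : ∀ u, 1 + r u ≤ Real.exp (3 * ℓ) := by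
    intro u
    have hs : ∑ x ∈ Y with u ∈ A x, (ms π (A x))⁻¹ ≤ (Y.card : ℝ) * Real.exp ℓ := by
      calc _ ≤ ∑ x ∈ Y with u ∈ A x, Real.exp ℓ := by
            refine Finset.sum_le_sum fun x hx => ?_
            have hx' := (Finset.mem_filter.1 hx).1
            rw [inv_le_comm₀ (hapos x hx') (Real.exp_pos _), ← Real.exp_neg]
            exact ha x hx'
        _ ≤ ∑ x ∈ Y, Real.exp ℓ :=
            Finset.sum_le_sum_of_subset_of_nonneg (Finset.filter_subset _ _)
              fun _ _ _ => (Real.exp_pos _).le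
        _ = _ := by rw [Finset.sum_const, nsmul_eq_mul]
    have he := Real.exp_pos ℓ
    have h3 : Real.exp (3 * ℓ) = Real.exp ℓ * (Real.exp ℓ * Real.exp ℓ) := by
      rw [← Real.exp_add, ← Real.exp_add]; ring_nf
    have h4 : (Y.card : ℝ) * Real.exp ℓ ≤ Real.exp ℓ * Real.exp ℓ / 2 := by
      have : (0 : ℝ) ≤ Y.card := Nat.cast_nonneg _
      nlinarith
    have h5 : r u ≤ ℓ * (Real.exp ℓ * Real.exp ℓ) := by
      have : r u ≤ κ * (Real.exp ℓ * Real.exp ℓ / 2) :=
        mul_le_mul_of_nonneg_left (hs.trans h4) hκ0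
      nlinarith [mul_pos he he]
    have h6 : 1 ≤ Real.exp ℓ * Real.exp ℓ := by
      have : 1 ≤ Real.exp ℓ := by linarith [Real.add_one_le_exp ℓ]
      nlinarith
    have h7 := Real.add_one_le_exp ℓ
    rw [h3]
    nlinarith
  have hq1 : ∀ u, π u * (1 + r u) ≤ 1 := by
    intro u
    calc π u * (1 + r u) ≤ Real.exp (-(4 * ℓ)) * Real.exp (3 * ℓ) :=
          mul_le_mul (h1 u) (hr1 u) (by linarith [hr0 u]) (Real.exp_pos _).le
      _ = Real.exp (-ℓ) := by rw [← Real.exp_add]; ring_nf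
      _ ≤ 1 := Real.exp_le_one_iff.2 (by linarith)
  have hq0 : ∀ u, 0 ≤ π u * (1 + r u) := fun u => mul_nonneg (h0 u) (by linarith [hr0 u])
  have hπ1 : ∀ u, π u ≤ 1 := fun u => (h1 u).trans (Real.exp_le_one_iff.2 (by linarith))
  set q : U → ℝ := fun u => π u * (1 + r u) with hq
  -- total tilt mass
  have htot : ∑ u, π u * r u ≤ 2 * ℓ * g / 3 := by
    have : ∑ u, π u * r u = κ * (Y.card : ℝ) := by
      have h2 : ∑ u, π u * r u = κ * ∑ u, π u * ∑ x ∈ Y with u ∈ A x, (ms π (A x))⁻¹ := by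
        rw [Finset.mul_sum]
        exact Finset.sum_congr rfl fun u _ => by simp only [hr]; ring
      rw [h2, sum_mul_tilt]
      congr 1
      rw [Finset.card_eq_sum_ones, Nat.cast_sum]
      refine Finset.sum_congr rfl fun x hx => ?_
      rw [Finset.univ_inter, mul_inv_cancel₀ (hapos x hx).ne']
      simp
    rw [this]
    have h3 : κ * (Y.card : ℝ) ≤ κ * (g ^ 2 / 3) := mul_le_mul_of_nonneg_left (by linarith) hκ0
    have h4 : κ * (g ^ 2 / 3) = (κ * g) * g / 3 := by ring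
    rw [h4, hκg] at h3
    nlinarith
  -- heavy sets are missed rarely under the tilted law
  have hmiss : ∀ x ∈ H, bpr q (fun η => Disjoint η (A x)) ≤ 1 / (2 * D) := by
    intro x hx
    refine (miss_le hq1 (A x)).trans ?_
    have h2 : Real.log (2 * D) ≤ ms q (A x) := by
      have h3 : ∑ u ∈ A x, π u * r u =
          κ * ∑ x' ∈ Y, ms π (A x ∩ A x') * (ms π (A x'))⁻¹ := by
        rw [← sum_mul_tilt, Finset.mul_sum]
        exact Finset.sum_congr rfl fun u _ => by simp only [hr]; ring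
      calc Real.log (2 * D) = κ * g := hκg.symm
        _ ≤ _ := mul_le_mul_of_nonneg_left (hH x hx) hκ0
        _ = _ := h3.symm
        _ ≤ ms q (A x) := Finset.sum_le_sum fun u _ => by
            simp only [hq]; nlinarith [h0 u]
    calc Real.exp (-ms q (A x)) ≤ Real.exp (-Real.log (2 * D)) := Real.exp_le_exp.2 (by linarith)
      _ = 1 / (2 * D) := by rw [Real.exp_neg, Real.exp_log (by linarith), one_div]
  have hmiss' : ∑ x ∈ H, bpr q (fun η => Disjoint η (A x)) ≤ 1 / 6 := by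
    calc _ ≤ ∑ x ∈ H, 1 / (2 * D) := Finset.sum_le_sum hmiss
      _ = (H.card : ℝ) * (1 / (2 * D)) := by rw [Finset.sum_const, nsmul_eq_mul]
      _ ≤ (D / 3) * (1 / (2 * D)) := by
          refine mul_le_mul_of_nonneg_right ?_ (by positivity)
          have : (H.card : ℝ) ≤ Y.card := by exact_mod_cast Finset.card_le_card hHY
          linarith
      _ = 1 / 6 := by field_simp; ring
  set S : Finset U → ℝ := fun η => ∑ u ∈ η, Real.log (1 + r u) with hS
  have hlog : ∀ u, 0 ≤ Real.log (1 + r u) := fun u => Real.log_nonneg (by linarith [hr0 u])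
  have hS0 : ∀ η, 0 ≤ S η := fun η => Finset.sum_nonneg fun u _ => hlog u
  set T := 8 * g * ℓ ^ 2 with hT
  have hT0 : 0 < T := by positivity
  have hES : bex q S ≤ T / 3 := by
    rw [hS, bex_sum_mem]
    calc ∑ u, q u * Real.log (1 + r u) ≤ ∑ u, (π u * r u) * (4 * ℓ) := by
          refine Finset.sum_le_sum fun u _ => ?_
          have h2 : Real.log (1 + r u) ≤ r u := by
            linarith [Real.log_le_sub_one_of_pos (show 0 < 1 + r u by linarith [hr0 u])]
          have h3 : Real.log (1 + r u) ≤ 3 * ℓ := by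
            rw [Real.log_le_iff_le_exp (by linarith [hr0 u])]
            exact hr1 u
          have h4 : (1 + r u) * Real.log (1 + r u) ≤ r u * (4 * ℓ) := by
            nlinarith [hr0 u]
          simp only [hq]
          nlinarith [h0 u]
      _ = (∑ u, π u * r u) * (4 * ℓ) := by rw [Finset.sum_mul]
      _ ≤ (2 * ℓ * g / 3) * (4 * ℓ) := mul_le_mul_of_nonneg_right htot (by linarith)
      _ = T / 3 := by rw [hT]; ring
  have hpt : ∀ η : Finset U,
      bw q η * (Real.exp (-T) * (1 - ∑ x ∈ H, ind (Disjoint η (A x)) - S η * T⁻¹)) ≤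
        bw π η * ind (∀ x ∈ H, ¬ Disjoint η (A x)) := by
    intro η
    have hw := bw_nonneg hq0 hq1 η
    have hw' := bw_nonneg h0 hπ1 η
    have hsum0 : 0 ≤ ∑ x ∈ H, ind (Disjoint η (A x)) := Finset.sum_nonneg fun _ _ => ind_nonneg _
    have hST : 0 ≤ S η * T⁻¹ := mul_nonneg (hS0 η) (inv_nonneg.2 hT0.le)
    have hneg : 1 - ∑ x ∈ H, ind (Disjoint η (A x)) - S η * T⁻¹ ≤ 0 →
        bw q η * (Real.exp (-T) * (1 - ∑ x ∈ H, ind (Disjoint η (A x)) - S η * T⁻¹)) ≤
        bw π η * ind (∀ x ∈ H, ¬ Disjoint η (A x)) := by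
      intro h
      exact (mul_nonpos_of_nonneg_of_nonpos hw
        (mul_nonpos_of_nonneg_of_nonpos (Real.exp_pos _).le h)).trans
        (mul_nonneg hw' (ind_nonneg _))
    by_cases hF : ∀ x ∈ H, ¬ Disjoint η (A x)
    · by_cases hle : S η ≤ T
      · rw [ind_of _ hF, mul_one]
        have h2 := bw_tilt_le h0 hr0 hq1 η
        have h3 : ∏ u ∈ η, (1 + r u) = Real.exp (S η) := by
          rw [hS, Real.exp_sum]
          exact Finset.prod_congr rfl fun u _ => (Real.exp_log (by linarith [hr0 u])).symm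
        rw [h3] at h2
        have h4 : Real.exp (S η) * Real.exp (-T) ≤ 1 := by
          rw [← Real.exp_add]; exact Real.exp_le_one_iff.2 (by linarith)
        have h5 := Real.exp_pos (-T)
        calc _ ≤ bw q η * (Real.exp (-T) * 1) :=
              mul_le_mul_of_nonneg_left (mul_le_mul_of_nonneg_left (by linarith) h5.le) hw
          _ ≤ (bw π η * Real.exp (S η)) * (Real.exp (-T) * 1) :=
              mul_le_mul_of_nonneg_right h2 (by positivity)
          _ = bw π η * (Real.exp (S η) * Real.exp (-T)) := by ring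
          _ ≤ bw π η * 1 := mul_le_mul_of_nonneg_left h4 hw'
          _ = _ := mul_one _
      · apply hneg
        push Not at hle
        have : 1 ≤ S η * T⁻¹ := by
          rw [← div_eq_mul_inv, le_div_iff₀ hT0]; linarith
        linarith
    · apply hneg
      push Not at hF
      obtain ⟨x, hx, hd⟩ := hF
      have : ind (Disjoint η (A x)) ≤ ∑ x ∈ H, ind (Disjoint η (A x)) :=
        Finset.single_le_sum (f := fun x => ind (Disjoint η (A x))) (fun _ _ => ind_nonneg _) hx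
      rw [ind_of _ hd] at this
      linarith
  have hsum : bex q (fun η => Real.exp (-T) *
      (1 - ∑ x ∈ H, ind (Disjoint η (A x)) - S η * T⁻¹)) ≤
      bpr π fun η => ∀ x ∈ H, ¬ Disjoint η (A x) := Finset.sum_le_sum fun η _ => hpt η
  rw [bex_const_mul, bex_sub, bex_sub, bex_const, bex_sum, bex_mul_const] at hsum
  refine le_trans ?_ hsum
  have h6 : bex q S * T⁻¹ ≤ 1 / 3 := by
    rw [← div_eq_mul_inv, div_le_iff₀ hT0]; linarith
  have h7 : Real.exp (-(9 * g * ℓ ^ 2)) ≤ Real.exp (-T) * (1 / 2) := by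
    have h8 : Real.exp (-(9 * g * ℓ ^ 2)) = Real.exp (-T) * Real.exp (-(g * ℓ ^ 2)) := by
      rw [← Real.exp_add, hT]; ring_nf
    rw [h8]
    refine mul_le_mul_of_nonneg_left ?_ (Real.exp_pos _).le
    have h9 : 1 ≤ g * ℓ ^ 2 := by nlinarith
    rw [Real.exp_neg, inv_le_comm₀ (Real.exp_pos _) (by norm_num)]
    linarith [Real.add_one_le_exp (g * ℓ ^ 2)]
  refine h7.trans (mul_le_mul_of_nonneg_left ?_ (Real.exp_pos _).le)
  have : ∑ x ∈ H, bex q (fun η => ind (Disjoint η (A x))) ≤ 1 / 6 := hmiss'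
  linarith

open Classical in
/-- the trimmed set -/
noncomputable def trim (π : U → ℝ) (g : ℝ) (Y : Finset X) (A : X → Finset U) (x : X) : Finset U :=
  (A x).filter fun u => ((Y.filter fun x' => u ∈ A x' ∧ ms π (A x') ≤ ms π (A x)).card : ℝ) ≤ 2 * g

omit [Fintype U] in
lemma trim_subset (π : U → ℝ) (g : ℝ) (Y : Finset X) (A : X → Finset U) (x : X) :
    trim π g Y A x ⊆ A x := Finset.filter_subset _ _

omit [Fintype U] in
lemma card_trim_le (π : U → ℝ) {g : ℝ} (hg : 0 ≤ g) (Y : Finset X) (A : X → Finset U) (u : U) :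
    ((Y.filter fun x => u ∈ trim π g Y A x).card : ℝ) ≤ 2 * g := by
  classical
  rcases (Y.filter fun x => u ∈ trim π g Y A x).eq_empty_or_nonempty with h | h
  · rw [h]; simp; linarith
  · obtain ⟨x, hx, hmax⟩ := Finset.exists_max_image _ (fun x => ms π (A x)) h
    have hx2 := (Finset.mem_filter.1 hx).2
    have h3 := (Finset.mem_filter.1 hx2).2
    refine le_trans ?_ h3
    refine Nat.cast_le.2 (Finset.card_le_card fun x' hx' => ?_)
    have h4 := Finset.mem_filter.1 hx'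
    simp only [Finset.mem_filter]
    exact ⟨h4.1, trim_subset π g Y A x' h4.2, hmax x' hx'⟩

omit [Fintype U] in
lemma ms_trim_ge {π : U → ℝ} (h0 : ∀ u, 0 ≤ π u) {g : ℝ} (hg : 0 < g) (Y : Finset X)
    (A : X → Finset U) (hpos : ∀ x ∈ Y, 0 < ms π (A x)) (x : X)
    (hx : ∑ x' ∈ Y, ms π (A x ∩ A x') * (ms π (A x'))⁻¹ ≤ g) :
    ms π (A x) / 2 ≤ ms π (trim π g Y A x) := by
  classical
  set N : U → ℝ := fun u =>
    ((Y.filter fun x' => u ∈ A x' ∧ ms π (A x') ≤ ms π (A x)).card : ℝ) with hN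
  have ha := ms_nonneg h0 (A x)
  have h1 : ∑ u ∈ A x, π u * N u ≤ ms π (A x) * g := by
    have h2 : ∀ u, N u = ∑ x' ∈ Y with u ∈ A x', if ms π (A x') ≤ ms π (A x) then (1 : ℝ) else 0 := by
      intro u
      simp only [hN]
      rw [← Finset.filter_filter, Finset.card_eq_sum_ones, Nat.cast_sum, Finset.sum_filter]
      simp
    simp only [h2]
    rw [sum_mul_tilt]
    calc _ ≤ ∑ x' ∈ Y, ms π (A x) * (ms π (A x ∩ A x') * (ms π (A x'))⁻¹) := by
          refine Finset.sum_le_sum fun x' hx' => ?_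
          have h3 := ms_nonneg h0 (A x ∩ A x')
          have h4 := hpos x' hx'
          split_ifs with h
          · have : 1 ≤ ms π (A x) * (ms π (A x'))⁻¹ := by
              rw [← div_eq_mul_inv, le_div_iff₀ h4]; linarith
            nlinarith
          · have := inv_nonneg.2 h4.le
            rw [mul_zero]
            positivity
      _ = ms π (A x) * ∑ x' ∈ Y, ms π (A x ∩ A x') * (ms π (A x'))⁻¹ := by rw [Finset.mul_sum]
      _ ≤ _ := mul_le_mul_of_nonneg_left hx ha
  have h5 : ms π (A x) = ms π (trim π g Y A x) + ∑ u ∈ A x with ¬ (N u ≤ 2 * g), π u := by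
    unfold ms trim
    rw [← Finset.sum_filter_add_sum_filter_not (A x) (fun u => N u ≤ 2 * g)]
  have h6 : (∑ u ∈ A x with ¬ (N u ≤ 2 * g), π u) * (2 * g) ≤ ∑ u ∈ A x, π u * N u := by
    rw [Finset.sum_mul]
    calc _ ≤ ∑ u ∈ A x with ¬ (N u ≤ 2 * g), π u * N u := by
          refine Finset.sum_le_sum fun u hu => ?_
          have := (Finset.mem_filter.1 hu).2
          exact mul_le_mul_of_nonneg_left (by linarith [not_le.1 this]) (h0 u)
      _ ≤ _ := Finset.sum_le_sum_of_subset_of_nonneg (Finset.filter_subset _ _)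
          fun u _ _ => mul_nonneg (h0 u) (Nat.cast_nonneg _)
  have h7 : (∑ u ∈ A x with ¬ (N u ≤ 2 * g), π u) ≤ ms π (A x) / 2 := by
    by_contra hc
    have hc' := not_le.1 hc
    nlinarith
  linarith

end Crest.Agent.R225
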