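import Crest.Agent.R225.LDefs

/-!
Row 225, lower bound: a sparse set of translation vectors has a sparse local picture.
-/

set_option autoImplicit false

open MeasureTheory Metric Set Filter
open scoped ENNReal

namespace Crest.Agent.R225

lemma measurableSet_cube (n : ℕ) (R : ℝ) : MeasurableSet (cube n R) := by
  have : cube n R = ⋂ i, {x : EE n | |x i| ≤ R} := by
    ext x; simp [cube]
  rw [this]
  refine MeasurableSet.iInter fun i => ?_
  refine IsClosed.measurableSet ?_
  exact isClosed_le (by fun_prop) continuous_const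

lemma volume_cube (n : ℕ) {R : ℝ} (hR : 0 ≤ R) :
    volume (cube n R) = ENNReal.ofReal ((2 * R) ^ n) := by
  rw [← (PiLp.volume_preserving_toLp (Fin n)).measure_preimage
    (measurableSet_cube n R).nullMeasurableSet]
  have : (WithLp.toLp 2 : (Fin n → ℝ) → EE n) ⁻¹' cube n R = closedBall (0 : Fin n → ℝ) R := by
    ext x
    simp only [cube, mem_preimage, mem_ofPred_eq, mem_closedBall, dist_zero_right]
    rw [pi_norm_le_iff_of_nonneg hR]
    simp
  rw [this, Real.volume_pi_closedBall _ hR]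
  simp

/-- indicator of a centred ball -/
noncomputable def indB (n : ℕ) (ρ : ℝ) : EE n → ℝ≥0∞ :=
  (closedBall (0 : EE n) ρ).indicator 1

lemma measurable_indB (n : ℕ) (ρ : ℝ) : Measurable (indB n ρ) :=
  measurable_one.indicator measurableSet_closedBall

lemma lintegral_indB (n : ℕ) {ρ : ℝ} (hρ : 0 ≤ ρ) :
    ∫⁻ w, indB n ρ w = ENNReal.ofReal (ρ ^ n) * volume (closedBall (0 : EE n) 1) := by
  unfold indB
  rw [lintegral_indicator_one measurableSet_closedBall, Measure.addHaar_closedBall' _ _ hρ]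
  simp

lemma indB_of_le {n : ℕ} {ρ : ℝ} {w : EE n} (h : ‖w‖ ≤ ρ) : indB n ρ w = 1 := by
  unfold indB
  rw [indicator_of_mem (by simpa using h)]
  rfl

/-- the majorant -/
noncomputable def majW (n : ℕ) (t s D : ℝ) (w : EE n) : ℝ≥0∞ :=
  ENNReal.ofReal 10 * indB n (1 + 1 / (2 * n)) w +
    ∑ k ∈ Finset.range (n + 1),
      ENNReal.ofReal (2 * t ^ 2 / n) * indB n (1 + 1 / (2 * n) - k / n) w +
    ENNReal.ofReal (2 * D) * indB n (1 - s + 1 / (2 * n)) w

lemma measurable_majW (n : ℕ) (t s D : ℝ) : Measurable (majW n t s D) := by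
  unfold majW
  refine Measurable.add (Measurable.add ?_ ?_) ?_
  · exact (measurable_indB _ _).const_mul _
  · exact Finset.measurable_sum _ fun k _ => (measurable_indB _ _).const_mul _
  · exact (measurable_indB _ _).const_mul _

lemma om_le_majW {n : ℕ} (hn : 2 ≤ n) {t s D : ℝ} (hD : 0 ≤ D) (w e : EE n)
    (he : ‖e‖ ≤ 1 / (2 * n)) : ENNReal.ofReal (om t s D (w + e)) ≤ majW n t s D w := by
  have hn0 : (0 : ℝ) < n := by exact_mod_cast (by omega : 0 < n)
  have hw : ‖w‖ ≤ ‖w + e‖ + 1 / (2 * n) := by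
    have : ‖w‖ ≤ ‖w + e‖ + ‖e‖ := by
      simpa using norm_sub_le (w + e) e
    linarith
  unfold om
  split_ifs with h1 h2
  all_goals try simp only [ENNReal.ofReal_zero, zero_le]
  all_goals
    set r := ‖w + e‖ with hr
    have hr0 : 0 ≤ r := norm_nonneg _
    have hmid : ENNReal.ofReal (2 * t ^ 2 * (1 - r)) ≤ ∑ k ∈ Finset.range (n + 1),
        ENNReal.ofReal (2 * t ^ 2 / n) * indB n (1 + 1 / (2 * n) - k / n) w := by
      set m := ⌊(n : ℝ) * (1 - r)⌋₊ with hm
      have hnn : 0 ≤ (n : ℝ) * (1 - r) := mul_nonneg hn0.le (by linarith)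
      have hm1 : (m : ℝ) ≤ n * (1 - r) := Nat.floor_le hnn
      have hm2 : (n : ℝ) * (1 - r) < m + 1 := Nat.lt_floor_add_one _
      have hmn : m ≤ n := by
        have : (m : ℝ) ≤ n := hm1.trans (by nlinarith)
        exact_mod_cast this
      calc ENNReal.ofReal (2 * t ^ 2 * (1 - r))
          ≤ ENNReal.ofReal (((m + 1 : ℕ) : ℝ) * (2 * t ^ 2 / n)) := by
            refine ENNReal.ofReal_le_ofReal ?_
            have : 2 * t ^ 2 * (1 - r) = (n * (1 - r)) * (2 * t ^ 2 / n) := by
              field_simp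
            rw [this]
            refine mul_le_mul_of_nonneg_right ?_ (by positivity)
            push_cast; exact hm2.le
        _ = ∑ k ∈ Finset.range (m + 1), ENNReal.ofReal (2 * t ^ 2 / n) := by
            rw [Finset.sum_const, Finset.card_range, nsmul_eq_mul,
              ENNReal.ofReal_mul (by positivity), ENNReal.ofReal_natCast]
        _ = ∑ k ∈ Finset.range (m + 1),
              ENNReal.ofReal (2 * t ^ 2 / n) * indB n (1 + 1 / (2 * n) - k / n) w := by
            refine Finset.sum_congr rfl fun k hk => ?_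
            rw [indB_of_le, mul_one]
            have hk' : (k : ℝ) ≤ m := by
              exact_mod_cast Nat.lt_succ_iff.mp (Finset.mem_range.mp hk)
            have : (k : ℝ) / n ≤ 1 - r := by
              rw [div_le_iff₀ hn0]; nlinarith
            linarith
        _ ≤ _ := by
            refine Finset.sum_le_sum_of_subset ?_
            exact Finset.range_subset_range.mpr (by omega)
    have hfst : ENNReal.ofReal 10 ≤ ENNReal.ofReal 10 * indB n (1 + 1 / (2 * n)) w := by
      rw [indB_of_le (by linarith), mul_one]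
    have hpos : 0 ≤ 2 * t ^ 2 * (1 - r) := mul_nonneg (by positivity) (by linarith)
    unfold majW
  · rw [ENNReal.ofReal_add (by positivity) (by positivity),
      ENNReal.ofReal_add (by positivity) hpos]
    refine add_le_add (add_le_add hfst hmid) ?_
    rw [indB_of_le (by linarith), mul_one]
  · rw [add_zero, ENNReal.ofReal_add (by positivity) hpos]
    exact (add_le_add hfst hmid).trans le_self_add

lemma pow_le_exp_aux {n : ℕ} (hn : 2 ≤ n) {k : ℕ} (hk : k ≤ n) :
    (1 + 1 / (2 * n) - k / n : ℝ) ^ n ≤ 2 * (1 / 2) ^ k := by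
  have hn0 : (0 : ℝ) < n := by exact_mod_cast (by omega : 0 < n)
  have hk' : (k : ℝ) ≤ n := by exact_mod_cast hk
  have h0 : (0 : ℝ) ≤ 1 + 1 / (2 * n) - k / n := by
    have : (k : ℝ) / n ≤ 1 := by rw [div_le_one hn0]; exact hk'
    have : (0 : ℝ) ≤ 1 / (2 * n) := by positivity
    linarith
  have h1 : (1 + 1 / (2 * n) - k / n : ℝ) ≤ Real.exp (1 / (2 * n) - k / n) := by
    have := Real.add_one_le_exp (1 / (2 * n) - k / n : ℝ)
    linarith
  have h2 : (1 + 1 / (2 * n) - k / n : ℝ) ^ n ≤ Real.exp (1 / 2 - k) := by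
    refine (pow_le_pow_left₀ h0 h1 n).trans (le_of_eq ?_)
    rw [← Real.exp_nat_mul]
    congr 1
    field_simp
  refine h2.trans ?_
  rw [sub_eq_add_neg, Real.exp_add]
  have h3 : Real.exp (1 / 2) ≤ 2 := by
    have : Real.exp (1 / 2) ^ 2 = Real.exp 1 := by
      rw [← Real.exp_nat_mul]; norm_num
    have h4 := Real.exp_one_lt_d9
    nlinarith [Real.exp_pos (1 / 2 : ℝ)]
  have h4 : Real.exp (-(k : ℝ)) ≤ (1 / 2) ^ k := by
    have : Real.exp (-(k : ℝ)) = Real.exp (-1) ^ k := by
      rw [← Real.exp_nat_mul]; congr 1; ring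
    rw [this]
    refine pow_le_pow_left₀ (Real.exp_pos _).le ?_ k
    rw [Real.exp_neg]
    have := Real.exp_one_gt_d9
    rw [inv_le_comm₀ (Real.exp_pos _) (by norm_num)]
    linarith
  exact mul_le_mul h3 h4 (Real.exp_pos _).le (by norm_num)

lemma lintegral_majW_le {n : ℕ} (hn : 2 ≤ n) {t s D : ℝ} (hD : 0 ≤ D) (hs1 : s ≤ 1) :
    ∫⁻ w, majW n t s D w ≤
      ENNReal.ofReal (20 + 8 * t ^ 2 / n + 2 * D * (1 - s + 1 / (2 * n)) ^ n) *
        volume (closedBall (0 : EE n) 1) := by
  have hn0 : (0 : ℝ) < n := by exact_mod_cast (by omega : 0 < n)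
  have hh : (0 : ℝ) ≤ 1 / (2 * n) := by positivity
  unfold majW
  rw [lintegral_add_right _ ((measurable_indB _ _).const_mul _),
    lintegral_add_left ((measurable_indB _ _).const_mul _),
    lintegral_finsetSum _ (fun k _ => (measurable_indB _ _).const_mul _),
    lintegral_const_mul _ (measurable_indB _ _), lintegral_const_mul _ (measurable_indB _ _),
    lintegral_indB _ (by linarith), lintegral_indB _ (by linarith)]
  have hs' : (0 : ℝ) ≤ (1 - s + 1 / (2 * n)) ^ n := pow_nonneg (by linarith) _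
  rw [ENNReal.ofReal_add (by positivity) (by positivity),
    ENNReal.ofReal_add (by positivity) (by positivity), add_mul, add_mul]
  refine add_le_add (add_le_add ?_ ?_) (le_of_eq ?_)
  · rw [← mul_assoc, ← ENNReal.ofReal_mul (by norm_num)]
    refine mul_le_mul_left (ENNReal.ofReal_le_ofReal ?_) _
    have := pow_le_exp_aux hn (Nat.zero_le n)
    simp only [Nat.cast_zero, zero_div, sub_zero, pow_zero, mul_one] at this
    linarith
  · calc ∑ k ∈ Finset.range (n + 1),
          ∫⁻ w, ENNReal.ofReal (2 * t ^ 2 / n) * indB n (1 + 1 / (2 * n) - k / n) w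
        ≤ ∑ k ∈ Finset.range (n + 1), ENNReal.ofReal (2 * t ^ 2 / n * (2 * (1 / 2) ^ k)) *
            volume (closedBall (0 : EE n) 1) := by
          refine Finset.sum_le_sum fun k hk => ?_
          have hk' : k ≤ n := Nat.lt_succ_iff.mp (Finset.mem_range.mp hk)
          have h0 : (0 : ℝ) ≤ 1 + 1 / (2 * n) - k / n := by
            have : (k : ℝ) / n ≤ 1 := by
              rw [div_le_one hn0]; exact_mod_cast hk'
            linarith
          rw [lintegral_const_mul _ (measurable_indB _ _), lintegral_indB _ h0, ← mul_assoc,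
            ← ENNReal.ofReal_mul (by positivity)]
          refine mul_le_mul_left (ENNReal.ofReal_le_ofReal ?_) _
          exact mul_le_mul_of_nonneg_left (pow_le_exp_aux hn hk') (by positivity)
      _ = ENNReal.ofReal (∑ k ∈ Finset.range (n + 1), 2 * t ^ 2 / n * (2 * (1 / 2) ^ k)) *
            volume (closedBall (0 : EE n) 1) := by
          rw [ENNReal.ofReal_sum_of_nonneg (fun k _ => by positivity), Finset.sum_mul]
      _ ≤ _ := by
          refine mul_le_mul_left (ENNReal.ofReal_le_ofReal ?_) _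
          rw [← Finset.mul_sum, ← Finset.mul_sum]
          have := sum_geometric_two_le (n + 1)
          have h2 : 8 * t ^ 2 / n = 2 * t ^ 2 / n * (2 * 2) := by ring
          rw [h2]
          refine mul_le_mul_of_nonneg_left ?_ (by positivity)
          linarith
  · rw [← mul_assoc, ← ENNReal.ofReal_mul (by positivity)]

/-- coordinatewise rounding -/
noncomputable def rnd (n : ℕ) (x : EE n) : EE n :=
  WithLp.toLp 2 fun i => ((⌊2 * (n : ℝ) ^ 2 * x i⌋ : ℤ) : ℝ) / (2 * (n : ℝ) ^ 2)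

lemma norm_sub_rnd {n : ℕ} (hn : 2 ≤ n) (x : EE n) : ‖x - rnd n x‖ ≤ 1 / (2 * n) := by
  have hn0 : (0 : ℝ) < n := by exact_mod_cast (by omega : 0 < n)
  have hn1 : (1 : ℝ) ≤ n := by exact_mod_cast (by omega : 1 ≤ n)
  have hc : ∀ i, ‖(x - rnd n x) i‖ ≤ 1 / (2 * (n : ℝ) ^ 2) := by
    intro i
    have h1 := Int.floor_le (2 * (n : ℝ) ^ 2 * x i)
    have h2 := Int.lt_floor_add_one (2 * (n : ℝ) ^ 2 * x i)
    have : (x - rnd n x) i =
        (2 * (n : ℝ) ^ 2 * x i - ((⌊2 * (n : ℝ) ^ 2 * x i⌋ : ℤ) : ℝ)) / (2 * (n : ℝ) ^ 2) := by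
      simp only [rnd, PiLp.sub_apply]
      field_simp
    rw [this, Real.norm_eq_abs, abs_div, abs_of_pos (by positivity : (0 : ℝ) < 2 * (n : ℝ) ^ 2)]
    refine div_le_div_of_nonneg_right ?_ (by positivity)
    rw [abs_le]; constructor <;> linarith
  rw [EuclideanSpace.norm_eq]
  refine Real.sqrt_le_iff.mpr ⟨by positivity, ?_⟩
  calc ∑ i, ‖(x - rnd n x) i‖ ^ 2 ≤ ∑ _i : Fin n, (1 / (2 * (n : ℝ) ^ 2)) ^ 2 :=
        Finset.sum_le_sum fun i _ => pow_le_pow_left₀ (norm_nonneg _) (hc i) 2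
    _ = n * (1 / (2 * (n : ℝ) ^ 2)) ^ 2 := by simp
    _ ≤ (n : ℝ) ^ 2 * (1 / (2 * (n : ℝ) ^ 2)) ^ 2 :=
        mul_le_mul_of_nonneg_right (by nlinarith) (by positivity)
    _ = (1 / (2 * n)) ^ 2 := by field_simp

lemma rnd_mem_grid {n : ℕ} (x : EE n) (hx : ‖x‖ ≤ 2) : rnd n x ∈ grid n := by
  classical
  unfold grid
  refine Finset.mem_image.mpr ⟨fun i => ⌊2 * (n : ℝ) ^ 2 * x i⌋, ?_, rfl⟩
  rw [Fintype.mem_piFinset]
  intro i
  have hi : |x i| ≤ 2 := (PiLp.norm_apply_le x i).trans hx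
  rw [abs_le] at hi
  have hn2 : (0 : ℝ) ≤ (n : ℝ) ^ 2 := by positivity
  rw [Finset.mem_Icc]
  constructor
  · rw [Int.le_floor]
    push_cast
    nlinarith
  · have h1 := Int.floor_le (2 * (n : ℝ) ^ 2 * x i)
    have : ((⌊2 * (n : ℝ) ^ 2 * x i⌋ : ℤ) : ℝ) ≤ ((6 * (n : ℤ) ^ 2 : ℤ) : ℝ) := by
      push_cast
      nlinarith
    exact_mod_cast this

lemma om_nonneg {n : ℕ} {t s D : ℝ} (hD : 0 ≤ D) (w : EE n) : 0 ≤ om t s D w := by
  unfold om
  split_ifs with h1 h2
  · have : 0 ≤ 2 * t ^ 2 * (1 - ‖w‖) := mul_nonneg (by positivity) (by linarith)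
    positivity
  · have : 0 ≤ 2 * t ^ 2 * (1 - ‖w‖) := mul_nonneg (by positivity) (by linarith)
    positivity
  · exact le_rfl

lemma eventually_ratio (n : ℕ) :
    ∀ᶠ R : ℝ in atTop, 3 < R ∧ (2 * R) ^ n ≤ 3 / 2 * (2 * (R - 3)) ^ n := by
  have h1 : Tendsto (fun R : ℝ => (1 - 3 * R⁻¹) ^ n) atTop (nhds ((1 - 3 * 0) ^ n)) :=
    ((tendsto_inv_atTop_zero.const_mul 3).const_sub 1).pow n
  have h2 : ∀ᶠ R : ℝ in atTop, (2 / 3 : ℝ) < (1 - 3 * R⁻¹) ^ n := by
    refine h1.eventually (lt_mem_nhds ?_)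
    norm_num
  filter_upwards [h2, eventually_gt_atTop (3 : ℝ)] with R hR hR3
  refine ⟨hR3, ?_⟩
  have hR0 : 0 < R := by linarith
  have : (2 * (R - 3)) ^ n = (2 * R) ^ n * (1 - 3 * R⁻¹) ^ n := by
    rw [← mul_pow]; congr 1; field_simp
  rw [this]
  have : 0 < (2 * R) ^ n := by positivity
  nlinarith

theorem exists_local {n : ℕ} (hn : 2 ≤ n) (X : Set (EE n)) (hfin : ∀ R, (X ∩ cube n R).Finite)
    {D' t s D : ℝ} (hD' : 0 < D') (hs : 0 ≤ s) (hs1 : s ≤ 1)
    (hX : ∃ᶠ R : ℝ in atTop,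
      ((X ∩ cube n R).ncard : ℝ) * (volume (closedBall (0 : EE n) 1)).toReal ≤ D' * (2 * R) ^ n)
    (hD : 100 * D' * (10 + t ^ 2 / n) ≤ D)
    (hsD : 32 * D' * (1 - s + 1 / (2 * n)) ^ n ≤ 1) :
    ∃ (y₀ : EE n) (Y : Finset (EE n)), Y ⊆ grid n ∧ (Y.card : ℝ) ≤ 4 * D' * 2 ^ n ∧
      volume (closedBall (0 : EE n) 1) ≤ 2 * volume (good t s D Y) ∧
      ∀ x ∈ X, ‖x - y₀‖ ≤ 2 → ∃ x' ∈ Y, ‖x - y₀ - x'‖ ≤ 1 / (2 * n) := by
  classical
  have hn0 : (0 : ℝ) < n := by exact_mod_cast (by omega : 0 < n)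
  obtain ⟨R, hR, hR3, hRat⟩ := (hX.and_eventually (eventually_ratio n)).exists
  have hDpos : 0 < D := lt_of_lt_of_le (by positivity) hD
  set B : Set (EE n) := closedBall 0 1 with hB
  have hVtop : volume B ≠ ∞ := measure_closedBall_lt_top.ne
  have hV0 : volume B ≠ 0 := (measure_closedBall_pos _ _ one_pos).ne'
  set v : ℝ := (volume B).toReal with hv
  have hvpos : 0 < v := ENNReal.toReal_pos hV0 hVtop
  have hVv : volume B = ENNReal.ofReal v := (ENNReal.ofReal_toReal hVtop).symm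
  clear_value v
  set XR : Finset (EE n) := (hfin R).toFinset with hXR
  have hcard : (X ∩ cube n R).ncard = XR.card := Set.ncard_eq_toFinset_card _ (hfin R)
  rw [hcard] at hR
  set q : ℝ := (2 * (R - 3)) ^ n with hq
  have hqpos : 0 < q := pow_pos (by linarith) _
  have hQ : volume (cube n (R - 3)) = ENNReal.ofReal q := volume_cube n (by linarith)
  set κ : ℝ := 20 + 8 * t ^ 2 / n + 2 * D * (1 - s + 1 / (2 * n)) ^ n with hκ
  have hs' : (0 : ℝ) ≤ (1 - s + 1 / (2 * n)) ^ n := by
    have : (0 : ℝ) ≤ 1 / (2 * n) := by positivity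
    exact pow_nonneg (by linarith) _
  have hκ0 : 0 ≤ κ := by positivity
  have hκD : D' * κ ≤ 0.15 * D := by
    have h1 : D' * κ = 20 * D' + 8 * (D' * (t ^ 2 / n)) +
        D / 16 * (32 * D' * (1 - s + 1 / (2 * n)) ^ n) := by
      rw [hκ]; ring
    have h2 : D / 16 * (32 * D' * (1 - s + 1 / (2 * n)) ^ n) ≤ D / 16 * 1 :=
      mul_le_mul_of_nonneg_left hsD (by positivity)
    have h3 : 0 ≤ D' * (t ^ 2 / n) := by positivity
    nlinarith
  -- the two random variables
  set N : EE n → ℝ≥0∞ := fun y₀ => ∑ x ∈ XR, indB n 2 (y₀ - x) with hN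
  set G : EE n → EE n → ℝ≥0∞ := fun y₀ y => ∑ x ∈ XR, majW n t s D (y₀ + (y - x)) with hG
  have hGm : Measurable (Function.uncurry G) := by
    refine Finset.measurable_sum XR fun x _ => ?_
    exact (measurable_majW n t s D).comp (by fun_prop)
  set S : EE n → ℝ≥0∞ := fun y₀ => ∫⁻ y in B, G y₀ y with hS
  have hNm : Measurable N := by
    refine Finset.measurable_sum XR fun x _ => ?_
    exact (measurable_indB n 2).comp (by fun_prop)
  have hSm : Measurable S := hGm.lintegral_prod_right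
  have hNint : ∫⁻ y₀, N y₀ = ENNReal.ofReal (XR.card * (2 ^ n * v)) := by
    have h0 : ∫⁻ y₀, N y₀ = ∑ x ∈ XR, ∫⁻ y₀, indB n 2 (y₀ - x) :=
      lintegral_finsetSum XR (f := fun x y₀ => indB n 2 (y₀ - x))
        (fun x _ => (measurable_indB n 2).comp (by fun_prop))
    rw [h0]
    have : ∀ x ∈ XR, ∫⁻ y₀, indB n 2 (y₀ - x) = ENNReal.ofReal (2 ^ n * v) := by
      intro x _
      rw [lintegral_sub_right_eq_self (indB n 2) x, lintegral_indB _ (by norm_num), ← hB, hVv,
        ← ENNReal.ofReal_mul (by positivity)]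
    rw [Finset.sum_congr rfl this, Finset.sum_const, nsmul_eq_mul,
      ENNReal.ofReal_mul (Nat.cast_nonneg _), ENNReal.ofReal_natCast]
  have hSint : ∫⁻ y₀, S y₀ ≤ ENNReal.ofReal (XR.card * (κ * v) * v) := by
    rw [hS, lintegral_lintegral_swap hGm.aemeasurable]
    have : ∀ y, ∫⁻ y₀, G y₀ y ≤ ENNReal.ofReal (XR.card * (κ * v)) := by
      intro y
      have h0 : ∫⁻ y₀, G y₀ y = ∑ x ∈ XR, ∫⁻ y₀, majW n t s D (y₀ + (y - x)) :=
        lintegral_finsetSum XR (f := fun x y₀ => majW n t s D (y₀ + (y - x)))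
          (fun x _ => (measurable_majW n t s D).comp (by fun_prop))
      rw [h0]
      have : ∀ x ∈ XR, ∫⁻ y₀, majW n t s D (y₀ + (y - x)) ≤ ENNReal.ofReal (κ * v) := by
        intro x _
        rw [lintegral_add_right_eq_self (majW n t s D) (y - x), ENNReal.ofReal_mul hκ0, ← hVv]
        exact lintegral_majW_le hn hDpos.le hs1
      refine (Finset.sum_le_sum this).trans (le_of_eq ?_)
      rw [Finset.sum_const, nsmul_eq_mul, ENNReal.ofReal_mul (Nat.cast_nonneg _),
        ENNReal.ofReal_natCast]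
    refine (lintegral_mono this).trans (le_of_eq ?_)
    rw [setLIntegral_const, hVv,
      ← ENNReal.ofReal_mul (mul_nonneg (Nat.cast_nonneg _) (mul_nonneg hκ0 hvpos.le))]
  set a : ℝ := D * v / 2 with ha
  set b : ℝ := 4 * D' * 2 ^ n with hb
  have hapos : 0 < a := by positivity
  have hbpos : 0 < b := by positivity
  set F : EE n → ℝ≥0∞ := fun y₀ => ENNReal.ofReal a * N y₀ + ENNReal.ofReal b * S y₀ with hF
  have hFm : Measurable F := (hNm.const_mul _).add (hSm.const_mul _)
  have hFint : ∫⁻ y₀, F y₀ ≤ ENNReal.ofReal (a * b * q) := by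
    rw [hF, lintegral_add_left (hNm.const_mul _), lintegral_const_mul _ hNm,
      lintegral_const_mul _ hSm, hNint]
    refine (add_le_add le_rfl (mul_le_mul_right hSint _)).trans ?_
    rw [← ENNReal.ofReal_mul hapos.le, ← ENNReal.ofReal_mul hbpos.le,
      ← ENNReal.ofReal_add
        (mul_nonneg hapos.le (mul_nonneg (Nat.cast_nonneg _) (by positivity)))
        (mul_nonneg hbpos.le (mul_nonneg (mul_nonneg (Nat.cast_nonneg _)
          (mul_nonneg hκ0 hvpos.le)) hvpos.le))]
    refine ENNReal.ofReal_le_ofReal ?_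
    have h1 : (XR.card : ℝ) * v ≤ D' * (3 / 2 * q) :=
      hR.trans (mul_le_mul_of_nonneg_left hRat hD'.le)
    have h2 : a * (XR.card * (2 ^ n * v)) ≤ a * b * q * (3 / 8) := by
      have : a * (XR.card * (2 ^ n * v)) = a * 2 ^ n * (XR.card * v) := by ring
      rw [this]
      refine (mul_le_mul_of_nonneg_left h1 (by positivity)).trans (le_of_eq ?_)
      rw [hb]; ring
    have h3 : b * (XR.card * (κ * v) * v) ≤ a * b * q * (45 / 100) := by
      have : b * (XR.card * (κ * v) * v) = b * κ * v * (XR.card * v) := by ring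
      rw [this]
      refine (mul_le_mul_of_nonneg_left h1 (by positivity)).trans ?_
      have : b * κ * v * (D' * (3 / 2 * q)) = (3 / 2 * b * v * q) * (D' * κ) := by ring
      rw [this]
      refine (mul_le_mul_of_nonneg_left hκD (by positivity)).trans (le_of_eq ?_)
      rw [ha]; ring
    have : 0 < a * b * q := by positivity
    linarith
  obtain ⟨y₀, hy₀, hFy⟩ := exists_le_setLAverage (μ := volume) (s := cube n (R - 3)) (f := F)
    (by rw [hQ]; exact (ENNReal.ofReal_pos.mpr hqpos).ne') (by rw [hQ]; exact ENNReal.ofReal_ne_top)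
    hFm.aemeasurable
  have hFy' : F y₀ ≤ ENNReal.ofReal a * ENNReal.ofReal b := by
    refine hFy.trans ?_
    rw [setLAverage_eq, hQ]
    refine ENNReal.div_le_of_le_mul ?_
    refine (setLIntegral_le_lintegral _ _).trans (hFint.trans (le_of_eq ?_))
    rw [ENNReal.ofReal_mul (by positivity), ENNReal.ofReal_mul hapos.le]
  have hNy : N y₀ ≤ ENNReal.ofReal b := by
    have : ENNReal.ofReal a * N y₀ ≤ ENNReal.ofReal a * ENNReal.ofReal b :=
      le_self_add.trans hFy'
    exact (ENNReal.mul_le_mul_iff_right (ENNReal.ofReal_pos.mpr hapos).ne'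
      ENNReal.ofReal_ne_top).mp this
  have hSy : S y₀ ≤ ENNReal.ofReal a := by
    have : ENNReal.ofReal b * S y₀ ≤ ENNReal.ofReal b * ENNReal.ofReal a := by
      rw [mul_comm (ENNReal.ofReal b) (ENNReal.ofReal a)]
      exact le_add_self.trans hFy'
    exact (ENNReal.mul_le_mul_iff_right (ENNReal.ofReal_pos.mpr hbpos).ne'
      ENNReal.ofReal_ne_top).mp this
  set Z : Finset (EE n) := XR.filter fun x => ‖x - y₀‖ ≤ 2 with hZ
  have hZcard : (Z.card : ℝ) ≤ b := by
    have h1 : (Z.card : ℝ≥0∞) ≤ N y₀ := by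
      calc (Z.card : ℝ≥0∞) = ∑ x ∈ Z, indB n 2 (y₀ - x) := by
            rw [Finset.card_eq_sum_ones, Nat.cast_sum]
            refine Finset.sum_congr rfl fun x hx => ?_
            rw [indB_of_le (by rw [norm_sub_rev]; exact (Finset.mem_filter.mp hx).2)]
            simp
        _ ≤ _ := Finset.sum_le_sum_of_subset (Finset.filter_subset _ _)
    have h2 := h1.trans hNy
    rw [← ENNReal.ofReal_natCast] at h2
    exact (ENNReal.ofReal_le_ofReal_iff hbpos.le).mp h2
  refine ⟨y₀, Z.image fun x => rnd n (x - y₀), ?_, ?_, ?_, ?_⟩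
  · intro x' hx'
    obtain ⟨x, hx, rfl⟩ := Finset.mem_image.mp hx'
    exact rnd_mem_grid _ (Finset.mem_filter.mp hx).2
  · refine le_trans ?_ hZcard
    exact_mod_cast Finset.card_image_le
  · set Y := Z.image fun x => rnd n (x - y₀) with hY
    have hGy : Measurable (G y₀) := hGm.of_uncurry_left
    have hpt : ∀ y, ENNReal.ofReal (∑ x ∈ Y, om t s D (y - x)) ≤ G y₀ y := by
      intro y
      have h1 : ∑ x ∈ Y, om t s D (y - x) ≤ ∑ x ∈ Z, om t s D (y - rnd n (x - y₀)) :=
        Finset.sum_image_le_of_nonneg (f := fun x => om t s D (y - x))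
          fun u _ => om_nonneg hDpos.le _
      refine (ENNReal.ofReal_le_ofReal h1).trans ?_
      rw [ENNReal.ofReal_sum_of_nonneg fun x _ => om_nonneg hDpos.le _]
      refine le_trans (Finset.sum_le_sum fun x _ => ?_)
        (Finset.sum_le_sum_of_subset (Finset.filter_subset _ _))
      have : y - rnd n (x - y₀) = (y₀ + (y - x)) + ((x - y₀) - rnd n (x - y₀)) := by abel
      rw [this]
      exact om_le_majW hn hDpos.le _ _ (norm_sub_rnd hn _)
    have hMk := mul_meas_ge_le_lintegral (μ := volume.restrict B) hGy (ENNReal.ofReal D)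
    have hbad : (volume.restrict B) {y | ENNReal.ofReal D ≤ G y₀ y} ≤ ENNReal.ofReal (v / 2) := by
      have h1 : ENNReal.ofReal D * (volume.restrict B) {y | ENNReal.ofReal D ≤ G y₀ y} ≤
          ENNReal.ofReal D * ENNReal.ofReal (v / 2) := by
        refine (hMk.trans hSy).trans (le_of_eq ?_)
        rw [← ENNReal.ofReal_mul hDpos.le, ha]; congr 1; ring
      exact (ENNReal.mul_le_mul_iff_right (ENNReal.ofReal_pos.mpr hDpos).ne'
        ENNReal.ofReal_ne_top).mp h1
    rw [Measure.restrict_apply' measurableSet_closedBall] at hbad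
    have hcov : B ⊆ good t s D Y ∪ ({y | ENNReal.ofReal D ≤ G y₀ y} ∩ B) := by
      intro y hy
      by_cases h : ENNReal.ofReal D ≤ G y₀ y
      · exact Or.inr ⟨h, hy⟩
      · left
        refine ⟨by simpa [hB] using hy, ?_⟩
        have := (hpt y).trans_lt (not_le.mp h)
        exact ((ENNReal.ofReal_lt_ofReal_iff hDpos).mp this).le
    have h1 : volume B ≤ volume (good t s D Y) + ENNReal.ofReal (v / 2) :=
      (measure_mono hcov).trans ((measure_union_le _ _).trans (add_le_add le_rfl hbad))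
    have h2 : ENNReal.ofReal (v / 2) + ENNReal.ofReal (v / 2) = volume B := by
      rw [← ENNReal.ofReal_add (by positivity) (by positivity), hVv]; congr 1; ring
    have h3 : ENNReal.ofReal (v / 2) ≤ volume (good t s D Y) := by
      rw [← h2] at h1
      exact (ENNReal.add_le_add_iff_right ENNReal.ofReal_ne_top).mp h1
    rw [← h2, two_mul]
    exact add_le_add h3 h3
  · intro x hx hxy
    refine ⟨rnd n (x - y₀), Finset.mem_image.mpr ⟨x, ?_, rfl⟩, norm_sub_rnd hn _⟩
    refine Finset.mem_filter.mpr ⟨?_, hxy⟩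
    rw [hXR, Set.Finite.mem_toFinset]
    refine ⟨hx, fun i => ?_⟩
    have h1 : |(x - y₀) i| ≤ 2 := (PiLp.norm_apply_le (x - y₀) i).trans hxy
    have h2 : |y₀ i| ≤ R - 3 := hy₀ i
    rw [PiLp.sub_apply] at h1
    have : |x i| ≤ |x i - y₀ i| + |y₀ i| := by
      simpa using abs_add_le (x i - y₀ i) (y₀ i)
    linarith

end Crest.Agent.R225
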