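import Mathlib

/-!
Row 225, lower bound: finite Bernoulli product measures on `Finset U`.
-/

set_option autoImplicit false

open Finset

namespace Crest.Agent.R225

variable {U : Type*} [Fintype U] [DecidableEq U]

/-- weight of a configuration -/
noncomputable def bw (π : U → ℝ) (η : Finset U) : ℝ := ∏ u, if u ∈ η then π u else 1 - π u

/-- expectation -/
noncomputable def bex (π : U → ℝ) (f : Finset U → ℝ) : ℝ := ∑ η, bw π η * f η

open Classical in
/-- indicator of a proposition -/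
noncomputable def ind (P : Prop) : ℝ := if P then 1 else 0

/-- probability -/
noncomputable def bpr (π : U → ℝ) (E : Finset U → Prop) : ℝ := bex π fun η => ind (E η)

lemma ind_nonneg (P : Prop) : 0 ≤ ind P := by unfold ind; split_ifs <;> norm_num

lemma ind_le_one (P : Prop) : ind P ≤ 1 := by unfold ind; split_ifs <;> norm_num

lemma ind_of (P : Prop) (h : P) : ind P = 1 := by unfold ind; simp [h]

lemma ind_of_not (P : Prop) (h : ¬ P) : ind P = 0 := by unfold ind; simp [h]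

lemma ind_mono {P Q : Prop} (h : P → Q) : ind P ≤ ind Q := by
  by_cases hP : P
  · rw [ind_of P hP, ind_of Q (h hP)]
  · rw [ind_of_not P hP]; exact ind_nonneg Q

lemma ind_congr {P Q : Prop} (h : P ↔ Q) : ind P = ind Q := by rw [propext h]

lemma ind_and (P Q : Prop) : ind (P ∧ Q) = ind P * ind Q := by
  by_cases hP : P <;> by_cases hQ : Q <;> simp [ind, hP, hQ]

lemma ind_not (P : Prop) : ind (¬ P) = 1 - ind P := by
  by_cases hP : P <;> simp [ind, hP]

lemma ind_forall {ι : Type*} (s : Finset ι) (P : ι → Prop) :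
    ind (∀ i ∈ s, P i) = ∏ i ∈ s, ind (P i) := by
  by_cases h : ∀ i ∈ s, P i
  · rw [ind_of _ h]
    exact (Finset.prod_eq_one fun i hi => ind_of _ (h i hi)).symm
  · rw [ind_of_not _ h]
    push Not at h
    obtain ⟨i, hi, hP⟩ := h
    exact (Finset.prod_eq_zero hi (ind_of_not _ hP)).symm

lemma ind_exists_le {ι : Type*} (s : Finset ι) (P : ι → Prop) :
    ind (∃ i ∈ s, P i) ≤ ∑ i ∈ s, ind (P i) := by
  by_cases h : ∃ i ∈ s, P i
  · rw [ind_of _ h]
    obtain ⟨i, hi, hP⟩ := h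
    rw [← ind_of _ hP]
    exact Finset.single_le_sum (f := fun i => ind (P i)) (fun j _ => ind_nonneg _) hi
  · rw [ind_of_not _ h]
    exact Finset.sum_nonneg fun j _ => ind_nonneg _

lemma bw_nonneg {π : U → ℝ} (h0 : ∀ u, 0 ≤ π u) (h1 : ∀ u, π u ≤ 1) (η : Finset U) :
    0 ≤ bw π η := by
  unfold bw
  refine Finset.prod_nonneg fun u _ => ?_
  split_ifs
  · exact h0 u
  · linarith [h1 u]

lemma prod_ite_mem_eq (f g : U → ℝ) (η : Finset U) :
    (∏ u, if u ∈ η then f u else g u) = (∏ u ∈ η, f u) * ∏ u ∈ ηᶜ, g u := by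
  rw [Finset.prod_ite]
  congr 1
  · congr 1; ext u; simp
  · congr 1; ext u; simp

lemma bex_prod (π φ : U → ℝ) :
    bex π (fun η => ∏ u ∈ η, φ u) = ∏ u, (1 + π u * (φ u - 1)) := by
  have h : ∏ u, (1 + π u * (φ u - 1)) = ∏ u, (π u * φ u + (1 - π u)) :=
    Finset.prod_congr rfl fun u _ => by ring
  rw [h, Fintype.prod_add]
  unfold bex bw
  refine Finset.sum_congr rfl fun η _ => ?_
  rw [prod_ite_mem_eq, Finset.prod_mul_distrib]
  ring

lemma sum_bw (π : U → ℝ) : ∑ η, bw π η = 1 := by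
  have := bex_prod π (fun _ => 1)
  simpa [bex] using this

lemma bex_const (π : U → ℝ) (c : ℝ) : bex π (fun _ => c) = c := by
  unfold bex
  rw [← Finset.sum_mul, sum_bw, one_mul]

lemma bex_add (π : U → ℝ) (f g : Finset U → ℝ) :
    bex π (fun η => f η + g η) = bex π f + bex π g := by
  unfold bex
  rw [← Finset.sum_add_distrib]
  exact Finset.sum_congr rfl fun η _ => by ring

lemma bex_sub (π : U → ℝ) (f g : Finset U → ℝ) :
    bex π (fun η => f η - g η) = bex π f - bex π g := by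
  unfold bex
  rw [← Finset.sum_sub_distrib]
  exact Finset.sum_congr rfl fun η _ => by ring

lemma bex_const_mul (π : U → ℝ) (c : ℝ) (f : Finset U → ℝ) :
    bex π (fun η => c * f η) = c * bex π f := by
  unfold bex
  rw [Finset.mul_sum]
  exact Finset.sum_congr rfl fun η _ => by ring

lemma bex_mul_const (π : U → ℝ) (c : ℝ) (f : Finset U → ℝ) :
    bex π (fun η => f η * c) = bex π f * c := by
  unfold bex
  rw [Finset.sum_mul]
  exact Finset.sum_congr rfl fun η _ => by ring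

lemma bex_sum {ι : Type*} (π : U → ℝ) (s : Finset ι) (f : ι → Finset U → ℝ) :
    bex π (fun η => ∑ i ∈ s, f i η) = ∑ i ∈ s, bex π (f i) := by
  unfold bex
  rw [Finset.sum_comm]
  exact Finset.sum_congr rfl fun η _ => by rw [Finset.mul_sum]

lemma bex_mono {π : U → ℝ} (h0 : ∀ u, 0 ≤ π u) (h1 : ∀ u, π u ≤ 1) {f g : Finset U → ℝ}
    (h : ∀ η, f η ≤ g η) : bex π f ≤ bex π g :=
  Finset.sum_le_sum fun η _ => mul_le_mul_of_nonneg_left (h η) (bw_nonneg h0 h1 η)

lemma bex_nonneg {π : U → ℝ} (h0 : ∀ u, 0 ≤ π u) (h1 : ∀ u, π u ≤ 1) {f : Finset U → ℝ}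
    (h : ∀ η, 0 ≤ f η) : 0 ≤ bex π f :=
  Finset.sum_nonneg fun η _ => mul_nonneg (bw_nonneg h0 h1 η) (h η)

lemma bpr_nonneg {π : U → ℝ} (h0 : ∀ u, 0 ≤ π u) (h1 : ∀ u, π u ≤ 1) (E : Finset U → Prop) :
    0 ≤ bpr π E := bex_nonneg h0 h1 fun _ => ind_nonneg _

lemma bpr_le_one {π : U → ℝ} (h0 : ∀ u, 0 ≤ π u) (h1 : ∀ u, π u ≤ 1) (E : Finset U → Prop) :
    bpr π E ≤ 1 := by
  have := bex_mono h0 h1 (f := fun η => ind (E η)) (g := fun _ => 1) fun _ => ind_le_one _
  rwa [bex_const] at this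

lemma bpr_mono {π : U → ℝ} (h0 : ∀ u, 0 ≤ π u) (h1 : ∀ u, π u ≤ 1) {E F : Finset U → Prop}
    (h : ∀ η, E η → F η) : bpr π E ≤ bpr π F :=
  bex_mono h0 h1 fun η => ind_mono (h η)

lemma bpr_not (π : U → ℝ) (E : Finset U → Prop) : bpr π (fun η => ¬ E η) = 1 - bpr π E := by
  unfold bpr
  simp only [ind_not]
  rw [bex_sub, bex_const]

lemma bpr_exists_le {ι : Type*} {π : U → ℝ} (h0 : ∀ u, 0 ≤ π u) (h1 : ∀ u, π u ≤ 1)
    (s : Finset ι) (E : ι → Finset U → Prop) :
    bpr π (fun η => ∃ i ∈ s, E i η) ≤ ∑ i ∈ s, bpr π (E i) := by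
  unfold bpr
  rw [← bex_sum]
  exact bex_mono h0 h1 fun η => ind_exists_le s fun i => E i η

lemma bpr_disjoint (π : U → ℝ) (A : Finset U) :
    bpr π (fun η => Disjoint η A) = ∏ u ∈ A, (1 - π u) := by
  have h : ∀ η : Finset U, ind (Disjoint η A) = ∏ u ∈ η, (if u ∈ A then (0 : ℝ) else 1) := by
    intro η
    rw [ind_congr (Finset.disjoint_left), ind_congr (Q := ∀ u ∈ η, u ∉ A) Iff.rfl, ind_forall]
    refine Finset.prod_congr rfl fun u _ => ?_
    by_cases hu : u ∈ A <;> simp [ind, hu]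
  unfold bpr
  simp only [h]
  rw [bex_prod]
  rw [← Finset.prod_subset (Finset.subset_univ A)]
  · exact Finset.prod_congr rfl fun u hu => by simp [hu]; ring
  · intro u _ hu
    simp [hu]

lemma bex_pow_card_inter (π : U → ℝ) (O : Finset U) (Λ : ℝ) :
    bex π (fun η => Λ ^ (η ∩ O).card) = ∏ u ∈ O, (1 + π u * (Λ - 1)) := by
  have h : ∀ η : Finset U, Λ ^ (η ∩ O).card = ∏ u ∈ η, (if u ∈ O then Λ else 1) := by
    intro η
    rw [Finset.prod_ite_mem, Finset.prod_const]
  simp only [h]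
  rw [bex_prod]
  rw [← Finset.prod_subset (Finset.subset_univ O)]
  · exact Finset.prod_congr rfl fun u hu => by simp [hu]
  · intro u _ hu
    simp [hu]

lemma bpr_mem (π : U → ℝ) (u : U) : bpr π (fun η => u ∈ η) = π u := by
  have h := bpr_disjoint π {u}
  have h2 := bpr_not π (fun η => u ∈ η)
  simp only [Finset.disjoint_singleton_right, Finset.prod_singleton] at h
  linarith

lemma bex_sum_mem (π c : U → ℝ) : bex π (fun η => ∑ u ∈ η, c u) = ∑ u, π u * c u := by
  have h : ∀ η : Finset U, ∑ u ∈ η, c u = ∑ u, ind (u ∈ η) * c u := by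
    intro η
    rw [← Finset.sum_subset (Finset.subset_univ η)]
    · exact Finset.sum_congr rfl fun u hu => by rw [ind_of _ hu, one_mul]
    · intro u _ hu
      rw [ind_of_not _ hu, zero_mul]
  simp only [h]
  rw [bex_sum]
  refine Finset.sum_congr rfl fun u _ => ?_
  rw [bex_mul_const]
  congr 1
  exact bpr_mem π u

/-- take `ξ` on `O` and `η` off `O` -/
def mix (O ξ η : Finset U) : Finset U := ξ ∩ O ∪ η \ O

omit [Fintype U] in
lemma mem_mix {O ξ η : Finset U} {u : U} :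
    u ∈ mix O ξ η ↔ (u ∈ O ∧ u ∈ ξ) ∨ (u ∉ O ∧ u ∈ η) := by
  unfold mix
  simp only [Finset.mem_union, Finset.mem_inter, Finset.mem_sdiff]
  tauto

omit [Fintype U] in
lemma mix_mix (O ξ η : Finset U) : mix O (mix O ξ η) (mix O η ξ) = ξ := by
  ext u
  simp only [mem_mix]
  tauto

lemma bw_mix (π : U → ℝ) (O ξ η : Finset U) :
    bw π (mix O ξ η) * bw π (mix O η ξ) = bw π ξ * bw π η := by
  unfold bw
  rw [← Finset.prod_mul_distrib, ← Finset.prod_mul_distrib]
  refine Finset.prod_congr rfl fun u _ => ?_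
  simp only [mem_mix]
  by_cases h1 : u ∈ O <;> by_cases h2 : u ∈ ξ <;> by_cases h3 : u ∈ η <;> simp [h1, h2, h3]
  all_goals ring

lemma bex_mix (π : U → ℝ) (O : Finset U) (f : Finset U → ℝ) :
    bex π f = bex π fun ξ => bex π fun η => f (mix O ξ η) := by
  have hinv : Function.Involutive
      (fun p : Finset U × Finset U => (mix O p.1 p.2, mix O p.2 p.1)) := by
    intro p
    simp only [mix_mix]
  have h1 : bex π f = ∑ p : Finset U × Finset U, bw π p.1 * bw π p.2 * f p.1 := by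
    rw [Fintype.sum_prod_type]
    unfold bex
    refine Finset.sum_congr rfl fun ξ _ => ?_
    have : ∑ η, bw π ξ * bw π η * f ξ = (bw π ξ * f ξ) * ∑ η, bw π η := by
      rw [Finset.mul_sum]
      exact Finset.sum_congr rfl fun η _ => by ring
    rw [this, sum_bw, mul_one]
  have h2 : (bex π fun ξ => bex π fun η => f (mix O ξ η)) =
      ∑ p : Finset U × Finset U, bw π p.1 * bw π p.2 * f (mix O p.1 p.2) := by
    rw [Fintype.sum_prod_type]
    unfold bex
    refine Finset.sum_congr rfl fun ξ _ => ?_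
    rw [Finset.mul_sum]
    exact Finset.sum_congr rfl fun η _ => by ring
  rw [h1, h2]
  rw [← Equiv.sum_comp hinv.toPerm]
  refine Finset.sum_congr rfl fun p _ => ?_
  simp only [Function.Involutive.coe_toPerm]
  rw [bw_mix]

lemma bex_mul_indep (π : U → ℝ) (S : Finset U) (F G : Finset U → ℝ)
    (hF : ∀ ξ η, F (mix S ξ η) = F ξ) (hG : ∀ ξ η, G (mix S ξ η) = G η) :
    bex π (fun η => F η * G η) = bex π F * bex π G := by
  rw [bex_mix π S]
  simp only [hF, hG]
  simp only [bex_const_mul]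
  rw [bex_mul_const]

/-- independence of functions with pairwise disjoint supports -/
lemma bex_prod_indep {ι : Type*} [DecidableEq ι] (π : U → ℝ) (s : Finset ι) (S : ι → Finset U)
    (F : ι → Finset U → ℝ) (hF : ∀ i ξ η, ξ ∩ S i = η ∩ S i → F i ξ = F i η)
    (hS : ∀ i j, i ≠ j → Disjoint (S i) (S j)) :
    bex π (fun η => ∏ i ∈ s, F i η) = ∏ i ∈ s, bex π (F i) := by
  induction s using Finset.induction_on with
  | empty => simp [bex_const]
  | insert a s ha ih =>
    simp only [Finset.prod_insert ha]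
    rw [bex_mul_indep π (S a) (F a) (fun η => ∏ i ∈ s, F i η), ih]
    · intro ξ η
      apply hF
      ext u
      simp only [Finset.mem_inter, mem_mix]
      tauto
    · intro ξ η
      refine Finset.prod_congr rfl fun i hi => ?_
      apply hF
      ext u
      have hd : Disjoint (S a) (S i) := hS a i (fun h => ha (h ▸ hi))
      have : u ∈ S i → u ∉ S a := fun h => Finset.disjoint_right.1 hd h
      simp only [Finset.mem_inter, mem_mix]
      tauto

lemma bw_mul_le {π : U → ℝ} (a b : Finset U) :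
    bw π a * bw π b ≤ bw π (a ⊓ b) * bw π (a ⊔ b) := by
  apply le_of_eq
  unfold bw
  rw [← Finset.prod_mul_distrib, ← Finset.prod_mul_distrib]
  refine Finset.prod_congr rfl fun u _ => ?_
  by_cases h2 : u ∈ a <;> by_cases h3 : u ∈ b <;> simp [h2, h3]
  all_goals ring

/-- Harris inequality -/
lemma bex_harris {π : U → ℝ} (h0 : ∀ u, 0 ≤ π u) (h1 : ∀ u, π u ≤ 1) {f g : Finset U → ℝ}
    (hf0 : ∀ η, 0 ≤ f η) (hg0 : ∀ η, 0 ≤ g η) (hf : Monotone f) (hg : Monotone g) :
    bex π f * bex π g ≤ bex π fun η => f η * g η := by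
  have := fkg (μ := bw π) (f := f) (g := g) (bw_nonneg h0 h1) hf0 hg0 hf hg bw_mul_le
  rwa [sum_bw, one_mul] at this

lemma bpr_harris {π : U → ℝ} (h0 : ∀ u, 0 ≤ π u) (h1 : ∀ u, π u ≤ 1) {E F : Finset U → Prop}
    (hE : ∀ ξ η, ξ ⊆ η → E ξ → E η) (hF : ∀ ξ η, ξ ⊆ η → F ξ → F η) :
    bpr π E * bpr π F ≤ bpr π fun η => E η ∧ F η := by
  unfold bpr
  simp only [ind_and]
  exact bex_harris h0 h1 (fun _ => ind_nonneg _) (fun _ => ind_nonneg _)
    (fun ξ η h => ind_mono (hE ξ η h)) (fun ξ η h => ind_mono (hF ξ η h))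

lemma bpr_harris_forall {ι : Type*} [DecidableEq ι] {π : U → ℝ} (h0 : ∀ u, 0 ≤ π u)
    (h1 : ∀ u, π u ≤ 1) (s : Finset ι) (E : ι → Finset U → Prop)
    (hE : ∀ i ξ η, ξ ⊆ η → E i ξ → E i η) :
    ∏ i ∈ s, bpr π (E i) ≤ bpr π fun η => ∀ i ∈ s, E i η := by
  induction s using Finset.induction_on with
  | empty =>
    simp only [Finset.prod_empty]
    unfold bpr
    have : ∀ η : Finset U, ind (∀ i ∈ (∅ : Finset ι), E i η) = 1 :=
      fun η => ind_of _ (by simp)
    simp only [this, bex_const, le_refl]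
  | insert a s ha ih =>
    rw [Finset.prod_insert ha]
    have h := bpr_harris h0 h1 (E := E a) (F := fun η => ∀ i ∈ s, E i η) (hE a)
      (fun ξ η h hξ i hi => hE i ξ η h (hξ i hi))
    refine le_trans (mul_le_mul_of_nonneg_left ih (bpr_nonneg h0 h1 _)) (h.trans (le_of_eq ?_))
    congr 1
    funext η
    simp

/-- change of measure -/
lemma bw_tilt_le {π r : U → ℝ} (h0 : ∀ u, 0 ≤ π u) (hr : ∀ u, 0 ≤ r u)
    (h1 : ∀ u, π u * (1 + r u) ≤ 1) (η : Finset U) :
    bw (fun u => π u * (1 + r u)) η ≤ bw π η * ∏ u ∈ η, (1 + r u) := by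
  unfold bw
  rw [prod_ite_mem_eq, prod_ite_mem_eq, Finset.prod_mul_distrib]
  have hA : 0 ≤ (∏ u ∈ η, π u) * ∏ u ∈ η, (1 + r u) :=
    mul_nonneg (Finset.prod_nonneg fun u _ => h0 u)
      (Finset.prod_nonneg fun u _ => by linarith [hr u])
  have hB : ∏ u ∈ ηᶜ, (1 - π u * (1 + r u)) ≤ ∏ u ∈ ηᶜ, (1 - π u) :=
    Finset.prod_le_prod (fun u _ => by linarith [h1 u])
      (fun u _ => by nlinarith [h0 u, hr u])
  calc _ ≤ ((∏ u ∈ η, π u) * ∏ u ∈ η, (1 + r u)) * ∏ u ∈ ηᶜ, (1 - π u) :=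
        mul_le_mul_of_nonneg_left hB hA
    _ = _ := by ring

end Crest.Agent.R225
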