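import Mathlib

/-!
Row 225, lower bound (S0348): shared definitions.
-/

set_option autoImplicit false

open MeasureTheory Metric Set

namespace Crest.Agent.R225

/-- Euclidean space -/
abbrev EE (n : ℕ) : Type := EuclideanSpace ℝ (Fin n)

/-- the cube `[-R, R]^n` -/
def cube (n : ℕ) (R : ℝ) : Set (EE n) := {x | ∀ i, |x i| ≤ R}

open Classical in
/-- cost of a translate at relative position `w` -/
noncomputable def om {n : ℕ} (t s D : ℝ) (w : EE n) : ℝ :=
  if ‖w‖ ≤ 1 then 10 + 2 * t ^ 2 * (1 - ‖w‖) + (if ‖w‖ < 1 - s then 2 * D else 0) else 0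

/-- points of the unit ball with small total cost -/
def good {n : ℕ} (t s D : ℝ) (Y : Finset (EE n)) : Set (EE n) :=
  {y | ‖y‖ ≤ 1 ∧ ∑ x ∈ Y, om t s D (y - x) ≤ D}

open Classical in
/-- a finite grid of mesh `1 / (2 n²)` in the cube `[-3, 3]^n` -/
noncomputable def grid (n : ℕ) : Finset (EE n) :=
  (Fintype.piFinset fun _ : Fin n =>
      Finset.Icc (-(6 * (n : ℤ) ^ 2) : ℤ) (6 * (n : ℤ) ^ 2 : ℤ)).image
    fun j : Fin n → ℤ => WithLp.toLp 2 fun i => ((j i : ℤ) : ℝ) / (2 * (n : ℝ) ^ 2)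

lemma card_grid_le (n : ℕ) : (grid n).card ≤ (12 * n ^ 2 + 1) ^ n := by
  classical
  unfold grid
  refine Finset.card_image_le.trans ?_
  rw [Fintype.card_piFinset]
  simp only [Int.card_Icc, Finset.prod_const, Finset.card_univ, Fintype.card_fin]
  refine le_of_eq ?_
  congr 1
  have : (6 * (n : ℤ) ^ 2 + 1 - -(6 * (n : ℤ) ^ 2)) = ((12 * n ^ 2 + 1 : ℕ) : ℤ) := by
    push_cast; ring
  rw [this, Int.toNat_natCast]

end Crest.Agent.R225
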