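import Crest.Agent.R225.LMain

/-!
Row 225, lower bound: the statement in Euclidean space.
-/

set_option autoImplicit false

open MeasureTheory Metric Set Filter
open scoped InnerProductSpace Pointwise

namespace Crest.Agent.R225

theorem exists_body {n : ℕ} (hL : 320 ≤ Real.log n)
    (hLa : 10 ^ 20 * Real.log n ^ 3 ≤ Real.exp (Real.log n / 4)) :
    ∃ K : Set (EE n), IsCompact K ∧ Convex ℝ K ∧ (interior K).Nonempty ∧ (∀ x ∈ K, -x ∈ K) ∧
      (volume (closedBall (0 : EE n) 1)).toReal ≤ 128 * (volume K).toReal ∧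
      ∀ X : Set (EE n), (∀ R, (X ∩ cube n R).Finite) → (∀ y : EE n, ∃ x ∈ X, y - x ∈ K) →
        ¬ ∃ᶠ R : ℝ in atTop, ((X ∩ cube n R).ncard : ℝ) *
          (volume (closedBall (0 : EE n) 1)).toReal ≤
            (n * Real.log n / (1600 * (10 + 4000 ^ 2))) * (2 * R) ^ n := by
  obtain ⟨m, u, η, hu, hvol, hY⟩ := exists_slab_body hL hLa
  have hn0 : (0 : ℝ) < n := by
    rcases Nat.eq_zero_or_pos n with h | h
    · subst h; norm_num at hL
    · exact_mod_cast h
  have hLn : Real.log n ≤ n := by linarith [Real.log_le_sub_one_of_pos hn0]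
  have hn320 : (320 : ℝ) ≤ n := hL.trans hLn
  have hnN : 320 ≤ n := by exact_mod_cast hn320
  set t := 4000 * √(n : ℝ) with ht
  set r : ℝ := 1 - 1 / n with hr
  have hinv : 1 / (n : ℝ) ≤ 1 / 2 := one_div_le_one_div_of_le (by norm_num) (by linarith)
  have hinv0 : 0 < 1 / (n : ℝ) := by positivity
  have hr0 : 0 < r := by linarith
  have hr1 : r ≤ 1 := by linarith
  have hcomp : IsCompact (Kbig u t η) :=
    (isCompact_closedBall 0 1).of_isClosed_subset (isClosed_Kbig u t η) (Kbig_subset u t η)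
  refine ⟨r • Kbig u t η, hcomp.smul r, (convex_Kbig u t η).smul r, ?_, ?_, ?_, ?_⟩
  · refine ⟨0, mem_interior.2 ⟨ball 0 (r / 2), fun w hw => ?_, isOpen_ball,
      mem_ball_self (by linarith)⟩⟩
    refine ⟨r⁻¹ • w, mem_Kbig_of_norm_le hu η ?_, by simp [smul_smul, hr0.ne']⟩
    rw [norm_smul, Real.norm_of_nonneg (inv_nonneg.2 hr0.le), ← div_eq_inv_mul, div_le_iff₀ hr0]
    have := mem_ball_zero_iff.1 hw
    linarith
  · rintro _ ⟨w, hw, rfl⟩
    exact ⟨-w, neg_mem_Kbig u t η hw, by simp⟩
  · rw [Measure.addHaar_smul, finrank_euclideanSpace_fin, ENNReal.toReal_mul,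
      ENNReal.toReal_ofReal (abs_nonneg _), abs_of_nonneg (by positivity)]
    have h2 : Real.exp (-(2 * (1 / n))) ≤ r := by
      have h3 := Real.add_one_le_exp (2 * (1 / (n : ℝ)))
      have h4 : Real.exp (-(2 * (1 / (n : ℝ)))) * Real.exp (2 * (1 / (n : ℝ))) = 1 := by
        rw [← Real.exp_add]; simp
      have h5 := Real.exp_pos (-(2 * (1 / (n : ℝ))))
      by_contra hc
      have hc' := not_le.1 hc
      rw [hr] at hc'
      nlinarith
    have h3 : 1 / 8 ≤ r ^ n := by
      calc (1 / 8 : ℝ) ≤ Real.exp (-2) := by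
            rw [Real.exp_neg, le_inv_comm₀ (by norm_num) (Real.exp_pos _)]
            have h3 := Real.exp_one_lt_d9
            have h4 : Real.exp 2 = Real.exp 1 * Real.exp 1 := by rw [← Real.exp_add]; norm_num
            rw [h4]
            nlinarith [Real.exp_pos 1]
        _ = Real.exp (-(2 * (1 / n))) ^ n := by
            rw [← Real.exp_nat_mul]; congr 1; field_simp
        _ ≤ r ^ n := pow_le_pow_left₀ (Real.exp_pos _).le h2 n
    have h4 : 0 ≤ (volume (Kbig u t η)).toReal := ENNReal.toReal_nonneg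
    nlinarith
  · intro X hfin hcov hX
    have hD'0 : 0 < n * Real.log n / (1600 * (10 + 4000 ^ 2)) := by positivity
    have hD'1 : n * Real.log n / (1600 * (10 + 4000 ^ 2)) ≤ (n : ℝ) ^ 2 / 64 := by
      rw [div_le_div_iff₀ (by positivity) (by positivity)]
      nlinarith
    have hL3 : 3 * Real.log n ≤ n := by
      have h2 : Real.exp (Real.log n / 4) ≤ Real.exp (Real.log n) := Real.exp_le_exp.2 (by linarith)
      rw [Real.exp_log hn0] at h2
      have h3 : Real.log n ≤ Real.log n ^ 3 := by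
        nlinarith [sq_nonneg (Real.log n), mul_self_nonneg (Real.log n - 1)]
      nlinarith
    obtain ⟨y₀, Y, hY1, hY2, hY3, hY4⟩ := exists_local (t := t) (s := 3 * Real.log n / n)
      (D := n * Real.log n / 16) (by omega) X hfin hD'0 (by positivity)
      (by rw [div_le_one hn0]; exact hL3) hX
      (by
        rw [ht, mul_pow, Real.sq_sqrt hn0.le]
        apply le_of_eq
        field_simp
        ring)
      (by
        have h2 : (1 - 3 * Real.log n / n + 1 / (2 * n) : ℝ) ≤
            Real.exp (-(3 * Real.log n / n) + 1 / (2 * n)) := by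
          linarith [Real.add_one_le_exp (-(3 * Real.log n / n) + 1 / (2 * n))]
        have h3 : (0 : ℝ) ≤ 1 - 3 * Real.log n / n + 1 / (2 * n) := by
          have : 3 * Real.log n / n ≤ 1 := by rw [div_le_one hn0]; exact hL3
          have : (0 : ℝ) ≤ 1 / (2 * n) := by positivity
          linarith
        have h4 : (1 - 3 * Real.log n / n + 1 / (2 * n) : ℝ) ^ n ≤ ((n : ℝ) ^ 2)⁻¹ := by
          calc _ ≤ Real.exp (-(3 * Real.log n / n) + 1 / (2 * n)) ^ n := pow_le_pow_left₀ h3 h2 n
            _ = Real.exp (-(3 * Real.log n) + 1 / 2) := by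
                rw [← Real.exp_nat_mul]; congr 1; field_simp
            _ ≤ Real.exp (-((2 : ℕ) * Real.log n)) := Real.exp_le_exp.2 (by push_cast; linarith)
            _ = _ := by rw [Real.exp_neg, Real.exp_nat_mul, Real.exp_log hn0]
        calc _ ≤ 32 * ((n : ℝ) ^ 2 / 64) * ((n : ℝ) ^ 2)⁻¹ := by gcongr
          _ = 1 / 2 := by field_simp; norm_num
          _ ≤ 1 := by norm_num)
    refine hY Y hY1 ?_ hY3 fun y hy => ?_
    · have h2 : (3 * (n : ℝ) ^ 2 + 9) ≤ 2 ^ n := by exact_mod_cast sq_le_two_pow n (by omega)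
      have h3 : (Y.card : ℝ) ≤ 4 ^ n := by
        calc (Y.card : ℝ) ≤ _ := hY2
          _ ≤ 2 ^ n * 2 ^ n := by
              refine mul_le_mul_of_nonneg_right ?_ (by positivity)
              nlinarith
          _ = 4 ^ n := by rw [← mul_pow]; norm_num
      exact_mod_cast h3
    · obtain ⟨x, hx, w, hw, hw'⟩ := hcov (y + y₀)
      have hwn : ‖y + y₀ - x‖ ≤ 1 := by
        rw [← hw']
        beta_reduce
        rw [norm_smul, Real.norm_of_nonneg hr0.le]
        nlinarith [hw.1, norm_nonneg w]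
      have h2 : ‖x - y₀‖ ≤ 2 := by
        have : x - y₀ = y - (y + y₀ - x) := by abel
        rw [this]
        linarith [norm_sub_le y (y + y₀ - x)]
      obtain ⟨x', hx', he⟩ := hY4 x hx h2
      refine ⟨x', hx', ?_⟩
      have h3 : (n : ℝ) • (x - y₀ - x') ∈ Kbig u t η := by
        refine mem_Kbig_of_norm_le hu η ?_
        rw [norm_smul, Real.norm_of_nonneg hn0.le]
        calc (n : ℝ) * ‖x - y₀ - x'‖ ≤ n * (1 / (2 * n)) := mul_le_mul_of_nonneg_left he hn0.le
          _ = 1 / 2 := by field_simp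
      have h4 := convex_Kbig u t η hw h3 hr0.le hinv0.le (by rw [hr]; ring)
      have h5 : y - x' = r • w + (1 / (n : ℝ)) • (n : ℝ) • (x - y₀ - x') := by
        rw [smul_smul, one_div_mul_cancel hn0.ne', one_smul]
        beta_reduce at hw'
        rw [hw']
        abel
      rw [h5]
      exact h4

end Crest.Agent.R225
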