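import Crest.Agent.R225.LDefs

/-!
Row 225, lower bound: greedy selection of well separated groups of test points.
-/

set_option autoImplicit false

open MeasureTheory Metric Set
open scoped ENNReal

namespace Crest.Agent.R225

/-- abstract greedy selection -/
theorem lsel_greedy {X : Type} (A : Set X) (P : X → X → Prop) (Q : ℕ)
    (h : ∀ k, k < Q → ∀ y : Fin k → X, (∀ q, y q ∈ A) → ∃ x ∈ A, ∀ q, P x (y q) ∧ P (y q) x) :
    ∃ y : Fin Q → X, (∀ q, y q ∈ A) ∧ ∀ q q', q ≠ q' → P (y q) (y q') := by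
  induction Q with
  | zero => exact ⟨Fin.elim0, fun q => q.elim0, fun q => q.elim0⟩
  | succ Q ih =>
    obtain ⟨y, hy, hP⟩ := ih fun k hk => h k (by omega)
    obtain ⟨x, hx, hxP⟩ := h Q (by omega) y hy
    refine ⟨Fin.cons x y, fun q => ?_, fun q q' hq => ?_⟩
    · refine Fin.cases ?_ (fun q => ?_) q
      · simpa using hx
      · simpa using hy q
    · revert hq
      refine Fin.cases ?_ (fun q => ?_) q <;> refine Fin.cases ?_ (fun q' => ?_) q' <;> intro hq
      · exact absurd rfl hq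
      · simpa using (hxP q').1
      · simpa using (hxP q).2
      · simpa using hP q q' fun e => hq (by rw [e])

/-- the set of points close to a translate of one of the `w q` -/
def lselBad {n k : ℕ} (Δ : Finset (EE n)) (w : Fin k → EE n) (r : ℝ) : Set (EE n) :=
  ⋃ q, ⋃ δ ∈ Δ, closedBall (w q + δ) r ∪ closedBall (w q - δ) r

theorem lsel_measurable {n k : ℕ} (Δ : Finset (EE n)) (w : Fin k → EE n) (r : ℝ) :
    MeasurableSet (lselBad Δ w r) :=
  MeasurableSet.iUnion fun _ => Finset.measurableSet_biUnion _ fun _ _ =>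
    measurableSet_closedBall.union measurableSet_closedBall

theorem lsel_not_mem {n k : ℕ} {Δ : Finset (EE n)} {w : Fin k → EE n} {r : ℝ} {x : EE n}
    (h : x ∉ lselBad Δ w r) (q : Fin k) {δ : EE n} (hδ : δ ∈ Δ) :
    r < ‖x - w q - δ‖ ∧ r < ‖w q - x - δ‖ := by
  simp only [lselBad, mem_iUnion, mem_union, mem_closedBall, not_exists, not_or, not_le,
    dist_eq_norm] at h
  obtain ⟨h1, h2⟩ := h q δ hδ
  refine ⟨by rwa [sub_sub], ?_⟩
  rw [norm_sub_rev] at h2
  rwa [sub_right_comm]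

theorem lsel_ball {n : ℕ} (x : EE n) {r : ℝ} (hr : 0 ≤ r) :
    volume (closedBall x r) = ENNReal.ofReal (r ^ n) * volume (closedBall (0 : EE n) 1) := by
  rw [Measure.addHaar_closedBall' volume x hr, finrank_euclideanSpace_fin]

theorem lsel_vol_bad {n k : ℕ} (Δ : Finset (EE n)) (w : Fin k → EE n) {r : ℝ} (hr : 0 ≤ r) :
    volume (lselBad Δ w r) ≤
      ENNReal.ofReal (2 * (k * Δ.card * r ^ n)) * volume (closedBall (0 : EE n) 1) := by
  calc volume (lselBad Δ w r)
      ≤ ∑ q : Fin k, ∑ δ ∈ Δ, volume (closedBall (w q + δ) r ∪ closedBall (w q - δ) r) :=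
        (measure_iUnion_fintype_le _ _).trans
          (Finset.sum_le_sum fun q _ => measure_biUnion_finset_le _ _)
    _ ≤ ∑ _q : Fin k, ∑ _δ ∈ Δ, 2 * (ENNReal.ofReal (r ^ n) * volume (closedBall (0 : EE n) 1)) := by
        refine Finset.sum_le_sum fun q _ => Finset.sum_le_sum fun δ _ => ?_
        refine (measure_union_le _ _).trans_eq ?_
        rw [lsel_ball _ hr, lsel_ball _ hr, two_mul]
    _ = _ := by
        simp only [Finset.sum_const, Finset.card_univ, Fintype.card_fin, nsmul_eq_mul]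
        rw [ENNReal.ofReal_mul (by positivity), ENNReal.ofReal_mul (by positivity),
          ENNReal.ofReal_mul (by positivity), ENNReal.ofReal_natCast, ENNReal.ofReal_natCast,
          ENNReal.ofReal_ofNat]
        ring

theorem lsel_fubini {n : ℕ} {H : Set (EE n)} (hH : MeasurableSet H) {r : ℝ} (hr : 0 ≤ r) :
    ∫⁻ z, volume (H ∩ closedBall z r) =
      ENNReal.ofReal (r ^ n) * volume (closedBall (0 : EE n) 1) * volume H := by
  have hS : MeasurableSet {p : EE n × EE n | p.2 ∈ H ∧ dist p.2 p.1 ≤ r} :=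
    (measurable_snd hH).inter (measurableSet_le (measurable_snd.dist measurable_fst)
      measurable_const)
  have h1 : ∀ z, volume (H ∩ closedBall z r) =
      ∫⁻ x, {p : EE n × EE n | p.2 ∈ H ∧ dist p.2 p.1 ≤ r}.indicator 1 (z, x) := by
    intro z
    rw [← lintegral_indicator_one (hH.inter measurableSet_closedBall)]
    rfl
  simp_rw [h1]
  rw [lintegral_lintegral_swap (f := fun z x =>
    {p : EE n × EE n | p.2 ∈ H ∧ dist p.2 p.1 ≤ r}.indicator (1 : EE n × EE n → ℝ≥0∞) (z, x))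
    (measurable_one.indicator hS).aemeasurable, ← lintegral_indicator_const hH]
  refine lintegral_congr fun x => ?_
  by_cases hx : x ∈ H
  · rw [indicator_of_mem hx, ← lsel_ball x hr, ← lintegral_indicator_one measurableSet_closedBall]
    refine lintegral_congr fun z => ?_
    by_cases hz : z ∈ closedBall x r
    · rw [indicator_of_mem hz, indicator_of_mem]
      · rfl
      · exact ⟨hx, by rw [dist_comm]; exact hz⟩
    · rw [indicator_of_notMem hz, indicator_of_notMem]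
      exact fun h => hz (by rw [mem_closedBall, dist_comm]; exact h.2)
  · rw [indicator_of_notMem hx]
    refine (lintegral_congr fun z => ?_).trans lintegral_zero
    exact indicator_of_notMem (fun h => hx h.1) _

theorem lsel_center {n : ℕ} {H : Set (EE n)} (hH : MeasurableSet H) (hHB : H ⊆ closedBall 0 1)
    (hvol : ENNReal.ofReal (1 / 4) * volume (closedBall (0 : EE n) 1) ≤ volume H) {r : ℝ}
    (hr : 0 < r) (hr1 : r ≤ 1) :
    ∃ z, ENNReal.ofReal ((r / 2) ^ n / 8) * volume (closedBall (0 : EE n) 1) <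
      volume (H ∩ closedBall z r) := by
  by_contra hc
  push Not at hc
  set V := volume (closedBall (0 : EE n) 1) with hV
  have hV0 : V ≠ 0 := (measure_closedBall_pos volume _ one_pos).ne'
  have hVt : V ≠ ⊤ := measure_closedBall_lt_top.ne
  have h1 : ∫⁻ z, volume (H ∩ closedBall z r) ≤
      ENNReal.ofReal ((r / 2) ^ n / 8) * V * volume (closedBall (0 : EE n) 2) := by
    rw [← lintegral_indicator_const measurableSet_closedBall]
    refine lintegral_mono fun z => ?_
    by_cases hz : z ∈ closedBall (0 : EE n) 2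
    · rw [indicator_of_mem hz]; exact hc z
    · have : H ∩ closedBall z r = ∅ := by
        refine eq_empty_of_forall_notMem fun x hx => hz ?_
        have h1 : dist x 0 ≤ 1 := hHB hx.1
        have h2 : dist x z ≤ r := hx.2
        have h3 := dist_triangle_left z 0 x
        rw [mem_closedBall]
        linarith
      simp [this]
  rw [lsel_fubini hH hr.le, lsel_ball _ zero_le_two, ← hV] at h1
  have h2 : ENNReal.ofReal (r ^ n * (1 / 4)) * (V * V) ≤
      ENNReal.ofReal ((r / 2) ^ n / 8 * 2 ^ n) * (V * V) := by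
    rw [ENNReal.ofReal_mul (by positivity), ENNReal.ofReal_mul (by positivity)]
    calc ENNReal.ofReal (r ^ n) * ENNReal.ofReal (1 / 4) * (V * V)
        = ENNReal.ofReal (r ^ n) * V * (ENNReal.ofReal (1 / 4) * V) := by ring
      _ ≤ ENNReal.ofReal (r ^ n) * V * volume H := by gcongr
      _ ≤ _ := h1
      _ = _ := by ring
  rw [ENNReal.mul_le_mul_iff_left (mul_ne_zero hV0 hV0) (ENNReal.mul_ne_top hVt hVt),
    ENNReal.ofReal_le_ofReal_iff (by positivity), div_pow] at h2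
  have h3 : r ^ n / 2 ^ n / 8 * 2 ^ n = r ^ n / 8 := by field_simp
  have h4 : 0 < r ^ n := by positivity
  linarith

theorem lsel_group {n : ℕ} {H : Set (EE n)} (hH : MeasurableSet H) (hHB : H ⊆ closedBall 0 1)
    (hvol : ENNReal.ofReal (1 / 4) * volume (closedBall (0 : EE n) 1) ≤ volume H)
    (Δ : Finset (EE n)) {θ θ₁ : ℝ} (hθ : 0 < θ) (hθ₁ : 0 < θ₁) (hθ₁' : θ₁ ≤ 1) (Q : ℕ)
    (hQ : (Q : ℝ) * Δ.card * θ ^ n ≤ (θ₁ / 2) ^ n / 16) :
    ∃ (z : EE n) (y : Fin Q → EE n), (∀ q, y q ∈ H ∩ closedBall z θ₁) ∧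
      ∀ q q', q ≠ q' → ∀ δ ∈ Δ, θ ≤ ‖y q - y q' - δ‖ := by
  obtain ⟨z, hz⟩ := lsel_center hH hHB hvol hθ₁ hθ₁'
  refine ⟨z, lsel_greedy (H ∩ closedBall z θ₁) (fun a b => ∀ δ ∈ Δ, θ ≤ ‖a - b - δ‖) Q
    fun k hk y _ => ?_⟩
  have h1 : volume (lselBad Δ y θ) < volume (H ∩ closedBall z θ₁) := by
    refine ((lsel_vol_bad Δ y hθ.le).trans ?_).trans_lt hz
    have h2 : (k : ℝ) * Δ.card * θ ^ n ≤ Q * Δ.card * θ ^ n := by gcongr
    gcongr
    linarith
  obtain ⟨x, hx, hx'⟩ := not_subset.1 fun h => h1.not_ge (measure_mono h)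
  exact ⟨x, hx, fun q => ⟨fun δ hδ => (lsel_not_mem hx' q hδ).1.le,
    fun δ hδ => (lsel_not_mem hx' q hδ).2.le⟩⟩

theorem exists_groups {n : ℕ} (G : Set (EE n)) (hG : MeasurableSet G)
    (hGB : G ⊆ closedBall 0 1) (hvol : volume (closedBall (0 : EE n) 1) ≤ 2 * volume G)
    (Δ : Finset (EE n)) {θ θ₁ : ℝ} (hθ : 0 < θ) (hθ₁ : 0 < θ₁) (hθ₁' : θ₁ ≤ 1) (I Q : ℕ)
    (hI : (I : ℝ) * Δ.card * (3 * θ₁) ^ n ≤ 1 / 8)
    (hQ : (Q : ℝ) * Δ.card * θ ^ n ≤ (θ₁ / 2) ^ n / 16) :
    ∃ y : Fin I → Fin Q → EE n, (∀ i q, y i q ∈ G) ∧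
      (∀ i q q', q ≠ q' → ∀ δ ∈ Δ, θ ≤ ‖y i q - y i q' - δ‖) ∧
      (∀ i i' q q', i ≠ i' → ∀ δ ∈ Δ, θ₁ < ‖y i q - y i' q' - δ‖) := by
  obtain ⟨Y, hY, hP⟩ := lsel_greedy
    {p : EE n × (Fin Q → EE n) | (∀ q, p.2 q ∈ G ∩ closedBall p.1 θ₁) ∧
      ∀ q q', q ≠ q' → ∀ δ ∈ Δ, θ ≤ ‖p.2 q - p.2 q' - δ‖}
    (fun a b => ∀ q q', ∀ δ ∈ Δ, θ₁ < ‖a.2 q - b.2 q' - δ‖) I (by
      intro k hk Y hY
      set V := volume (closedBall (0 : EE n) 1) with hV
      have hVt : V ≠ ⊤ := measure_closedBall_lt_top.ne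
      have h1 : volume (lselBad Δ (fun i => (Y i).1) (2 * θ₁)) ≤ ENNReal.ofReal (1 / 4) * V := by
        refine (lsel_vol_bad Δ _ (by positivity)).trans ?_
        have h2 : (k : ℝ) * Δ.card * (2 * θ₁) ^ n ≤ I * Δ.card * (3 * θ₁) ^ n := by
          gcongr
          norm_num
        gcongr
        linarith
      have h2 : ENNReal.ofReal (1 / 4) * V ≤
          volume (G \ lselBad Δ (fun i => (Y i).1) (2 * θ₁)) := by
        have h3 : volume G ≤ volume (G \ lselBad Δ (fun i => (Y i).1) (2 * θ₁)) +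
            ENNReal.ofReal (1 / 4) * V :=
          calc volume G ≤ volume ((G \ lselBad Δ (fun i => (Y i).1) (2 * θ₁)) ∪
                lselBad Δ (fun i => (Y i).1) (2 * θ₁)) := measure_mono (subset_sdiff_union _ _)
            _ ≤ _ := (measure_union_le _ _).trans (by gcongr)
        have h4 : 2 * (ENNReal.ofReal (1 / 4) * V + ENNReal.ofReal (1 / 4) * V) = V := by
          rw [← add_mul, ← mul_assoc, ← ENNReal.ofReal_add (by norm_num) (by norm_num),
            ← ENNReal.ofReal_ofNat 2, ← ENNReal.ofReal_mul (by norm_num)]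
          norm_num
        have h5 : ENNReal.ofReal (1 / 4) * V + ENNReal.ofReal (1 / 4) * V ≤ volume G := by
          rw [← ENNReal.mul_le_mul_iff_right (a := 2) (by norm_num) (by norm_num), h4]
          exact hvol
        exact ENNReal.le_of_add_le_add_right (ENNReal.mul_ne_top ENNReal.ofReal_ne_top hVt)
          (h5.trans h3)
      obtain ⟨z, y, hy1, hy2⟩ := lsel_group (hG.diff (lsel_measurable _ _ _))
        (sdiff_subset.trans hGB) h2 Δ hθ hθ₁ hθ₁' Q hQ
      refine ⟨(z, y), ⟨fun q => ⟨(hy1 q).1.1, (hy1 q).2⟩, hy2⟩, fun i => ⟨fun q q' δ hδ => ?_,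
        fun q q' δ hδ => ?_⟩⟩
      · have h3 := (lsel_not_mem (hy1 q).1.2 i hδ).1
        have h4 : ‖(Y i).2 q' - (Y i).1‖ ≤ θ₁ := mem_closedBall_iff_norm.1 ((hY i).1 q').2
        have h5 := norm_add_le (y q - (Y i).2 q' - δ) ((Y i).2 q' - (Y i).1)
        rw [show y q - (Y i).2 q' - δ + ((Y i).2 q' - (Y i).1) = y q - (Y i).1 - δ by abel] at h5
        change θ₁ < ‖y q - (Y i).2 q' - δ‖
        linarith
      · have h3 := (lsel_not_mem (hy1 q').1.2 i hδ).2
        have h4 : ‖(Y i).2 q - (Y i).1‖ ≤ θ₁ := mem_closedBall_iff_norm.1 ((hY i).1 q).2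
        have h5 := norm_sub_le ((Y i).2 q - y q' - δ) ((Y i).2 q - (Y i).1)
        rw [show (Y i).2 q - y q' - δ - ((Y i).2 q - (Y i).1) = (Y i).1 - y q' - δ by abel] at h5
        change θ₁ < ‖(Y i).2 q - y q' - δ‖
        linarith)
  exact ⟨fun i => (Y i).2, fun i q => ((hY i).1 q).1, fun i => (hY i).2,
    fun i i' q q' h => hP i i' h q q'⟩

end Crest.Agent.R225
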