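import Crest.Agent.R225.LAbs
import Crest.Agent.R225.LSel

/-!
Row 225, lower bound: a fixed configuration covers the ball with tiny probability.
-/

set_option autoImplicit false

open MeasureTheory Metric Set
open scoped InnerProductSpace

namespace Crest.Agent.R225

/-- the unit ball cut by slabs -/
def Kbig {n m : ℕ} (u : Fin m → EE n) (t : ℝ) (η : Finset (Fin m)) : Set (EE n) :=
  {w | ‖w‖ ≤ 1 ∧ ∀ j ∈ η, |⟪u j, w⟫_ℝ| ≤ t}

lemma measurable_om' {n : ℕ} (t s D : ℝ) : Measurable (om (n := n) t s D) := by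
  unfold om
  refine Measurable.ite (measurableSet_le measurable_norm measurable_const) ?_ measurable_const
  refine Measurable.add (by fun_prop) ?_
  exact Measurable.ite (measurableSet_lt measurable_norm measurable_const) measurable_const
    measurable_const

lemma measurableSet_good {n : ℕ} (t s D : ℝ) (Y : Finset (EE n)) :
    MeasurableSet (good t s D Y) := by
  unfold good
  refine MeasurableSet.inter (measurableSet_le measurable_norm measurable_const) ?_
  have hm : Measurable fun y : EE n => ∑ x ∈ Y, om t s D (y - x) :=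
    Finset.measurable_sum _ fun x _ => (measurable_om' t s D).comp (measurable_id.sub_const x)
  exact measurableSet_le hm measurable_const

lemma om_nonneg' {n : ℕ} (t s : ℝ) {D : ℝ} (hD : 0 ≤ D) (w : EE n) : 0 ≤ om t s D w := by
  unfold om
  split_ifs with h1 h2
  · have : 0 ≤ 2 * t ^ 2 * (1 - ‖w‖) := mul_nonneg (by positivity) (by linarith)
    linarith
  · have : 0 ≤ 2 * t ^ 2 * (1 - ‖w‖) := mul_nonneg (by positivity) (by linarith)
    linarith
  · exact le_rfl

open Classical in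
theorem config_bound {n m : ℕ} (u : Fin m → EE n) (π : Fin m → ℝ) {t s D ℓ g θ θ₁ N : ℝ}
    {I Q : ℕ} (hℓ : 1 ≤ ℓ) (hD : 1 ≤ D) (hDℓ : D ≤ Real.exp ℓ) (hg : 1 ≤ g) (hDg : D ≤ g ^ 2)
    (h0 : ∀ j, 0 ≤ π j) (h1 : ∀ j, π j ≤ Real.exp (-(4 * ℓ)))
    (hup : ∀ w : EE n, ‖w‖ ≤ 1 → ∑ j with t < |⟪u j, w⟫_ℝ|, π j ≤ 1)
    (hlow : ∀ w : EE n, ‖w‖ ≤ 1 → 1 - √n / (16 * t) ≤ ‖w‖ →
        1 / 500 * Real.exp (-(2 * t ^ 2 * (1 - ‖w‖))) ≤
          ∑ j with t < ⟪u j, w⟫_ℝ ∧ ‖u j - t • w‖ ≤ 2 * √n, π j)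
    (hov : ∀ (w w' : EE n) (θ : ℝ), ‖w‖ ≤ 1 → ‖w'‖ ≤ 1 → 0 ≤ θ → θ ≤ ‖w - w'‖ →
        ∑ j with t < ⟪u j, w⟫_ℝ ∧ t < ⟪u j, w'⟫_ℝ, π j ≤ t * Real.exp (-(t ^ 2 * θ ^ 2 / 8)))
    (ht : 0 < t) (hs : s ≤ √n / (16 * t)) (hsℓ : 7 + 2 * t ^ 2 * s ≤ ℓ)
    (hθ : 0 < θ) (hθ₁ : 0 < θ₁) (hθ₁' : θ₁ ≤ 1)
    (hθt : t * Real.exp (-(t ^ 2 * θ ^ 2 / 8)) ≤ Real.exp (-(100 * g * ℓ ^ 2)))
    (hθ₁t : 4 * √n ≤ t * θ₁)
    (hI : (I : ℝ) * N ^ 2 * (3 * θ₁) ^ n ≤ 1 / 8)
    (hQ : (Q : ℝ) * N ^ 2 * θ ^ n ≤ (θ₁ / 2) ^ n / 16)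
    (hQ' : Real.exp (D + 100 * g * ℓ ^ 2) ≤ Q)
    (Y : Finset (EE n)) (hY : (Y.card : ℝ) ≤ N)
    (hgood : volume (closedBall (0 : EE n) 1) ≤ 2 * volume (good t s D Y)) :
    bpr π (fun η => ∀ y : EE n, ‖y‖ ≤ 1 → ∃ x ∈ Y, y - x ∈ Kbig u t η) ≤ (2 / 3) ^ I := by
  have hπ1 : ∀ j, π j ≤ 1 := fun j => (h1 j).trans (Real.exp_le_one_iff.2 (by linarith))
  set Δ : Finset (EE n) := (Y ×ˢ Y).image fun p => p.1 - p.2 with hΔ
  have hΔcard : (Δ.card : ℝ) ≤ N ^ 2 := by
    have h2 : Δ.card ≤ Y.card * Y.card := by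
      rw [← Finset.card_product]; exact Finset.card_image_le
    have h3 : (Δ.card : ℝ) ≤ (Y.card : ℝ) * Y.card := by exact_mod_cast h2
    have h4 : (0 : ℝ) ≤ Y.card := Nat.cast_nonneg _
    nlinarith
  obtain ⟨y, hyG, hysame, hydiff⟩ := exists_groups (good t s D Y) (measurableSet_good t s D Y)
    (fun w hw => mem_closedBall_zero_iff.2 hw.1) hgood Δ hθ hθ₁ hθ₁' I Q
    (le_trans (by gcongr) hI) (le_trans (by gcongr) hQ)
  set Z : Fin I → Fin Q → Finset (EE n) := fun i q => Y.filter fun x => ‖y i q - x‖ ≤ 1 with hZ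
  set A : Fin I → Fin Q → EE n → Finset (Fin m) := fun i q x =>
    Finset.univ.filter fun j => t < ⟪u j, y i q - x⟫_ℝ ∧ ‖u j - t • (y i q - x)‖ ≤ 2 * √n with hA
  have hD0 : 0 ≤ D := by linarith
  have hnear : ∀ i q, ∀ x ∈ Z i q, 1 - s ≤ ‖y i q - x‖ := by
    intro i q x hx
    have hx' := Finset.mem_filter.1 hx
    by_contra hc
    push Not at hc
    have h2 : om t s D (y i q - x) ≤ D :=
      le_trans (Finset.single_le_sum (f := fun x => om t s D (y i q - x))
        (fun z _ => om_nonneg' t s hD0 _) hx'.1) (hyG i q).2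
    unfold om at h2
    rw [if_pos hx'.2, if_pos hc] at h2
    have : 0 ≤ 2 * t ^ 2 * (1 - ‖y i q - x‖) := mul_nonneg (by positivity) (by linarith [hx'.2])
    linarith
  have h500 : Real.exp (-7) ≤ 1 / 500 := by
    rw [Real.exp_neg, inv_le_comm₀ (Real.exp_pos _) (by norm_num)]
    have h2 := Real.exp_one_gt_d9
    have h3 : Real.exp 7 = Real.exp 1 ^ 7 := by rw [← Real.exp_nat_mul]; norm_num
    rw [h3]
    calc (1 / 500 : ℝ)⁻¹ ≤ 2.7 ^ 7 := by norm_num
      _ ≤ Real.exp 1 ^ 7 := by gcongr; linarith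
  have hmass : ∀ i q, ∀ x ∈ Z i q,
      Real.exp (-(7 + 2 * t ^ 2 * (1 - ‖y i q - x‖))) ≤ ms π (A i q x) := by
    intro i q x hx
    have hx' := Finset.mem_filter.1 hx
    refine le_trans ?_ (hlow (y i q - x) hx'.2 (by linarith [hnear i q x hx]))
    rw [neg_add, Real.exp_add]
    exact mul_le_mul_of_nonneg_right h500 (Real.exp_pos _).le
  refine le_trans (bpr_mono h0 hπ1 fun η hη => ?_)
    (abstract_lemma hℓ hD hDℓ hg hDg h0 h1 Z A ?_ ?_ ?_ ?_ ?_ hQ')
  · intro i q
    obtain ⟨x, hx, hK⟩ := hη (y i q) (hyG i q).1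
    refine ⟨x, Finset.mem_filter.2 ⟨hx, hK.1⟩, Finset.disjoint_left.2 fun j hj hjA => ?_⟩
    have h2 := (Finset.mem_filter.1 hjA).2.1
    have h3 := hK.2 j hj
    linarith [le_abs_self ⟪u j, y i q - x⟫_ℝ]
  · intro i q x hx
    refine le_trans (Real.exp_le_exp.2 ?_) (hmass i q x hx)
    have h2 := hnear i q x hx
    have : 2 * t ^ 2 * (1 - ‖y i q - x‖) ≤ 2 * t ^ 2 * s :=
      mul_le_mul_of_nonneg_left (by linarith) (by positivity)
    linarith
  · intro i q x hx
    refine le_trans ?_ (hup (y i q - x) (Finset.mem_filter.1 hx).2)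
    refine ms_mono h0 fun j hj => ?_
    have h2 := (Finset.mem_filter.1 hj).2.1
    exact Finset.mem_filter.2 ⟨Finset.mem_univ _, h2.trans_le (le_abs_self _)⟩
  · intro i q
    refine le_trans ?_ (hyG i q).2
    calc ∑ x ∈ Z i q, (3 - Real.log (ms π (A i q x))) ≤ ∑ x ∈ Z i q, om t s D (y i q - x) := by
          refine Finset.sum_le_sum fun x hx => ?_
          have h2 := hmass i q x hx
          have h3 : -(7 + 2 * t ^ 2 * (1 - ‖y i q - x‖)) ≤ Real.log (ms π (A i q x)) :=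
            (Real.le_log_iff_exp_le ((Real.exp_pos _).trans_le h2)).2 h2
          unfold om
          rw [if_pos (Finset.mem_filter.1 hx).2]
          split_ifs <;> linarith
      _ ≤ _ := Finset.sum_le_sum_of_subset_of_nonneg (Finset.filter_subset _ _)
          fun x _ _ => om_nonneg' t s hD0 _
  · intro i q q' hne x hx x' hx'
    have hx1 := Finset.mem_filter.1 hx
    have hx2 := Finset.mem_filter.1 hx'
    have hδ : x - x' ∈ Δ := Finset.mem_image.2 ⟨(x, x'), Finset.mem_product.2 ⟨hx1.1, hx2.1⟩, rfl⟩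
    have h2 := hysame i q q' hne _ hδ
    have h3 : y i q - y i q' - (x - x') = (y i q - x) - (y i q' - x') := by abel
    rw [h3] at h2
    refine le_trans ?_ ((hov _ _ θ hx1.2 hx2.2 hθ.le h2).trans hθt)
    refine ms_mono h0 fun j hj => ?_
    have h4 := Finset.mem_inter.1 hj
    exact Finset.mem_filter.2 ⟨Finset.mem_univ _, (Finset.mem_filter.1 h4.1).2.1,
      (Finset.mem_filter.1 h4.2).2.1⟩
  · intro i i' q q' hne x hx x' hx'
    have hx1 := Finset.mem_filter.1 hx
    have hx2 := Finset.mem_filter.1 hx'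
    have hδ : x - x' ∈ Δ := Finset.mem_image.2 ⟨(x, x'), Finset.mem_product.2 ⟨hx1.1, hx2.1⟩, rfl⟩
    have h2 := hydiff i i' q q' hne _ hδ
    have h3 : y i q - y i' q' - (x - x') = (y i q - x) - (y i' q' - x') := by abel
    rw [h3] at h2
    refine Finset.disjoint_left.2 fun j hj hj' => ?_
    have h4 := (Finset.mem_filter.1 hj).2.2
    have h5 := (Finset.mem_filter.1 hj').2.2
    have h6 : ‖t • ((y i q - x) - (y i' q' - x'))‖ ≤ 4 * √n := by
      have : t • ((y i q - x) - (y i' q' - x')) =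
          (u j - t • (y i' q' - x')) - (u j - t • (y i q - x)) := by
        rw [smul_sub t (y i q - x)]; abel
      rw [this]
      linarith [norm_sub_le (u j - t • (y i' q' - x')) (u j - t • (y i q - x))]
    rw [norm_smul, Real.norm_of_nonneg ht.le] at h6
    have h7 := mul_lt_mul_of_pos_left h2 ht
    linarith

lemma isClosed_Kbig {n m : ℕ} (u : Fin m → EE n) (t : ℝ) (η : Finset (Fin m)) :
    IsClosed (Kbig u t η) := by
  have : Kbig u t η = {w | ‖w‖ ≤ 1} ∩ ⋂ j ∈ η, {w | |⟪u j, w⟫_ℝ| ≤ t} := by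
    ext w; simp [Kbig]
  rw [this]
  refine (isClosed_le continuous_norm continuous_const).inter
    (isClosed_biInter fun j _ => isClosed_le ?_ continuous_const)
  fun_prop

lemma Kbig_subset {n m : ℕ} (u : Fin m → EE n) (t : ℝ) (η : Finset (Fin m)) :
    Kbig u t η ⊆ closedBall 0 1 := fun _ hw => mem_closedBall_zero_iff.2 hw.1

lemma convex_Kbig {n m : ℕ} (u : Fin m → EE n) (t : ℝ) (η : Finset (Fin m)) :
    Convex ℝ (Kbig u t η) := by
  intro x hx y hy a b ha hb hab
  refine ⟨?_, fun j hj => ?_⟩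
  · have := (convex_closedBall (0 : EE n) 1) (mem_closedBall_zero_iff.2 hx.1)
      (mem_closedBall_zero_iff.2 hy.1) ha hb hab
    exact mem_closedBall_zero_iff.1 this
  · rw [inner_add_right, inner_smul_right, inner_smul_right]
    have h1 := abs_le.1 (hx.2 j hj)
    have h2 := abs_le.1 (hy.2 j hj)
    have h3 : t = a * t + b * t := by rw [← add_mul, hab, one_mul]
    rw [abs_le]
    constructor <;> nlinarith

lemma neg_mem_Kbig {n m : ℕ} (u : Fin m → EE n) (t : ℝ) (η : Finset (Fin m)) {w : EE n}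
    (hw : w ∈ Kbig u t η) : -w ∈ Kbig u t η :=
  ⟨by rw [norm_neg]; exact hw.1, fun j hj => by rw [inner_neg_right, abs_neg]; exact hw.2 j hj⟩

lemma mem_Kbig_of_norm_le {n m : ℕ} {u : Fin m → EE n} {t : ℝ} (hu : ∀ j, ‖u j‖ ≤ 2 * t)
    (η : Finset (Fin m)) {w : EE n} (hw : ‖w‖ ≤ 1 / 2) : w ∈ Kbig u t η := by
  refine ⟨by linarith, fun j _ => ?_⟩
  have h1 := abs_real_inner_le_norm (u j) w
  have h2 : ‖u j‖ * ‖w‖ ≤ (2 * t) * (1 / 2) :=
    mul_le_mul (hu j) hw (norm_nonneg _) ((norm_nonneg _).trans (hu j))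
  linarith

open Classical in
/-- the random body has large expected volume -/
lemma bex_vol_ge {n m : ℕ} (u : Fin m → EE n) (π : Fin m → ℝ) {t : ℝ}
    (h0 : ∀ j, 0 ≤ π j) (h1 : ∀ j, π j ≤ 1 / 2)
    (hup : ∀ w : EE n, ‖w‖ ≤ 1 → ∑ j with t < |⟪u j, w⟫_ℝ|, π j ≤ 1) :
    1 / 8 * (volume (closedBall (0 : EE n) 1)).toReal ≤
      bex π fun η => (volume (Kbig u t η)).toReal := by
  have hfin : volume (closedBall (0 : EE n) 1) ≠ ⊤ := measure_closedBall_lt_top.ne
  have hint : ∀ η, Integrable (fun w => (Kbig u t η).indicator (fun _ => (1 : ℝ)) w)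
      (volume.restrict (closedBall (0 : EE n) 1)) := fun η =>
    (integrableOn_const hfin).indicator (isClosed_Kbig u t η).measurableSet
  have hvol : ∀ η, (volume (Kbig u t η)).toReal =
      ∫ w in closedBall (0 : EE n) 1, (Kbig u t η).indicator (fun _ => (1 : ℝ)) w := by
    intro η
    rw [integral_indicator_const _ (isClosed_Kbig u t η).measurableSet, smul_eq_mul, mul_one,
      Measure.real, Measure.restrict_apply (isClosed_Kbig u t η).measurableSet,
      Set.inter_eq_left.2 (Kbig_subset u t η)]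
  simp only [hvol]
  unfold bex
  simp only [← integral_const_mul]
  rw [← integral_finsetSum _ fun η _ => (hint η).const_mul _]
  have hc : 1 / 8 * (volume (closedBall (0 : EE n) 1)).toReal =
      ∫ _ in closedBall (0 : EE n) 1, (1 / 8 : ℝ) := by
    rw [setIntegral_const, smul_eq_mul, mul_comm]; rfl
  rw [hc]
  refine setIntegral_mono_on (integrableOn_const hfin)
    (integrable_finsetSum _ fun η _ => (hint η).const_mul _) measurableSet_closedBall
    fun w hw => ?_
  have hw1 := mem_closedBall_zero_iff.1 hw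
  have h2 : ∑ η, bw π η * (Kbig u t η).indicator (fun _ => (1 : ℝ)) w =
      bpr π fun η => Disjoint η (Finset.univ.filter fun j => t < |⟪u j, w⟫_ℝ|) := by
    unfold bpr bex
    refine Finset.sum_congr rfl fun η _ => ?_
    congr 1
    have hiff : w ∈ Kbig u t η ↔ Disjoint η (Finset.univ.filter fun j => t < |⟪u j, w⟫_ℝ|) := by
      rw [Finset.disjoint_left]
      simp only [Kbig, Set.mem_ofPred_eq, hw1, true_and, Finset.mem_filter, Finset.mem_univ,
        not_lt]
    beta_reduce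
    rw [← ind_congr hiff]
    by_cases h : w ∈ Kbig u t η
    · rw [Set.indicator_of_mem h, ind_of _ h]
    · rw [Set.indicator_of_notMem h, ind_of_not _ h]
  rw [h2, bpr_disjoint]
  calc (1 / 8 : ℝ) ≤ Real.exp (-2) := by
        rw [Real.exp_neg, le_inv_comm₀ (by norm_num) (Real.exp_pos _)]
        have h3 := Real.exp_one_lt_d9
        have h4 : Real.exp 2 = Real.exp 1 * Real.exp 1 := by rw [← Real.exp_add]; norm_num
        rw [h4]
        nlinarith [Real.exp_pos 1]
    _ ≤ Real.exp (∑ j with t < |⟪u j, w⟫_ℝ|, -(2 * π j)) := by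
        rw [Real.exp_le_exp, Finset.sum_neg_distrib, ← Finset.mul_sum]
        linarith [hup w hw1]
    _ = ∏ j with t < |⟪u j, w⟫_ℝ|, Real.exp (-(2 * π j)) := Real.exp_sum _ _
    _ ≤ _ := by
        refine Finset.prod_le_prod (fun j _ => (Real.exp_pos _).le) fun j _ => ?_
        have h3 := Real.add_one_le_exp (2 * π j)
        have h4 : Real.exp (-(2 * π j)) * Real.exp (2 * π j) = 1 := by
          rw [← Real.exp_add]; simp
        have h5 := Real.exp_pos (-(2 * π j))
        have h6 := h0 j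
        have h7 := h1 j
        by_contra hc
        push Not at hc
        nlinarith

open Classical in
lemma card_small_subsets_le {α : Type*} (G : Finset α) (N : ℕ) :
    ((G.powerset.filter fun Y => Y.card ≤ N).card : ℝ) ≤ ((G.card : ℝ) + 1) ^ N := by
  have h1 : (G.powerset.filter fun Y => Y.card ≤ N) ⊆
      (Finset.range (N + 1)).biUnion fun k => G.powersetCard k := by
    intro Y hY
    have hY' := Finset.mem_filter.1 hY
    exact Finset.mem_biUnion.2 ⟨Y.card, Finset.mem_range.2 (by omega),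
      Finset.mem_powersetCard.2 ⟨Finset.mem_powerset.1 hY'.1, rfl⟩⟩
  have h2 : (G.powerset.filter fun Y => Y.card ≤ N).card ≤ (G.card + 1) ^ N := by
    refine (Finset.card_le_card h1).trans (Finset.card_biUnion_le.trans ?_)
    rw [add_pow]
    refine Finset.sum_le_sum fun k hk => ?_
    rw [Finset.card_powersetCard, one_pow, mul_one]
    have h3 : 1 ≤ N.choose k := Nat.choose_pos (by have := Finset.mem_range.1 hk; omega)
    calc G.card.choose k ≤ G.card ^ k := Nat.choose_le_pow _ _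
      _ ≤ _ := Nat.le_mul_of_pos_right _ h3
  exact_mod_cast h2

end Crest.Agent.R225
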