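import Crest.Agent.R225.LGaussEst

/-!
Row 225, lower bound: a finite discretisation of the Gaussian measure on facet normals.
-/

set_option autoImplicit false

open MeasureTheory ProbabilityTheory Metric Set
open scoped InnerProductSpace

namespace Crest.Agent.R225

/-- a finite measurable partition of a superset of a closed ball into small cells -/
lemma exists_cells {n : ℕ} (R : ℝ) {ε : ℝ} (hε : 0 < ε) :
    ∃ (m : ℕ) (u : Fin m → EE n) (C : Fin m → Set (EE n)), (∀ j, ‖u j‖ ≤ R) ∧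
      (∀ j, MeasurableSet (C j)) ∧ (∀ j, C j ⊆ ball (u j) ε) ∧
      (∀ i j, i ≠ j → Disjoint (C i) (C j)) ∧ (∀ g : EE n, ‖g‖ ≤ R → ∃ j, g ∈ C j) := by
  classical
  obtain ⟨s, hs, hfin, hcov⟩ :=
    finite_cover_balls_of_compact (isCompact_closedBall (0 : EE n) R) hε
  let S : Finset (EE n) := hfin.toFinset
  let u : Fin S.card → EE n := fun j => (S.equivFin.symm j : EE n)
  refine ⟨S.card, u, fun j => ball (u j) ε \ ⋃ i ∈ Finset.Iio j, ball (u i) ε, ?_, ?_, ?_, ?_, ?_⟩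
  · intro j
    have h1 : u j ∈ s := hfin.mem_toFinset.1 (S.equivFin.symm j).2
    simpa using hs h1
  · intro j
    exact measurableSet_ball.diff
      (Finset.measurableSet_biUnion _ fun i _ => measurableSet_ball)
  · intro j; exact sdiff_subset
  · intro i j hij
    rw [Set.disjoint_left]
    rintro g ⟨h1, h2⟩ ⟨h3, h4⟩
    rcases lt_or_gt_of_ne hij with h | h
    · exact h4 (mem_biUnion (Finset.mem_coe.2 (Finset.mem_Iio.2 h)) h1)
    · exact h2 (mem_biUnion (Finset.mem_coe.2 (Finset.mem_Iio.2 h)) h3)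
  · intro g hg
    have hg' : g ∈ closedBall (0 : EE n) R := by simpa using hg
    obtain ⟨x, hx, hgx⟩ := mem_iUnion₂.1 (hcov hg')
    have hex : ∃ j, g ∈ ball (u j) ε := by
      refine ⟨S.equivFin ⟨x, hfin.mem_toFinset.2 hx⟩, ?_⟩
      simpa [u] using hgx
    let T : Finset (Fin S.card) := Finset.univ.filter fun j => g ∈ ball (u j) ε
    have hT : T.Nonempty := by
      obtain ⟨j, hj⟩ := hex
      exact ⟨j, Finset.mem_filter.2 ⟨Finset.mem_univ _, hj⟩⟩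
    refine ⟨T.min' hT, (Finset.mem_filter.1 (T.min'_mem hT)).2, ?_⟩
    intro h
    obtain ⟨i, hi, hgi⟩ := mem_iUnion₂.1 h
    have h1 : T.min' hT ≤ i := T.min'_le i (Finset.mem_filter.2 ⟨Finset.mem_univ _, hgi⟩)
    exact absurd (Finset.mem_Iio.1 hi) (not_lt.2 h1)

lemma sum_cells_le {n m : ℕ} (γ : Measure (EE n)) [IsFiniteMeasure γ] (C : Fin m → Set (EE n))
    (hm : ∀ j, MeasurableSet (C j)) (hd : ∀ i j, i ≠ j → Disjoint (C i) (C j))
    (T : Finset (Fin m)) (A : Set (EE n)) (hA : ∀ j ∈ T, C j ⊆ A) :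
    ∑ j ∈ T, γ.real (C j) ≤ γ.real A := by
  rw [← measureReal_biUnion_finset (fun i _ j _ hij => hd i j hij) (fun j _ => hm j)]
  exact measureReal_mono (iUnion₂_subset hA)

lemma le_sum_cells {n m : ℕ} (γ : Measure (EE n)) [IsFiniteMeasure γ] (C : Fin m → Set (EE n))
    (T : Finset (Fin m)) (A : Set (EE n)) (hA : ∀ g ∈ A, ∃ j ∈ T, g ∈ C j) :
    γ.real A ≤ ∑ j ∈ T, γ.real (C j) := by
  refine le_trans (measureReal_mono ?_ (measure_ne_top _ _)) (measureReal_biUnion_finset_le T C)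
  intro g hg
  obtain ⟨j, hj, hgj⟩ := hA g hg
  exact mem_biUnion (Finset.mem_coe.2 hj) hgj

lemma inner_close {n : ℕ} {g u w : EE n} {δ : ℝ} (h : g ∈ ball u δ) (hw : ‖w‖ ≤ 1) :
    |⟪g, w⟫_ℝ - ⟪u, w⟫_ℝ| ≤ δ := by
  rw [← inner_sub_left]
  have h1 : ‖g - u‖ < δ := by simpa [dist_eq_norm] using h
  calc |⟪g - u, w⟫_ℝ| ≤ ‖g - u‖ * ‖w‖ := abs_real_inner_le_norm _ _
    _ ≤ ‖g - u‖ * 1 := by gcongr
    _ ≤ δ := by linarith

/-- estimate (1) -/
lemma geo_tail {n : ℕ} {t : ℝ} (ht : 20 ≤ t) (w : EE n) (hw : ‖w‖ ≤ 1) :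
    t * Real.exp (t ^ 2 / 2) / 4 *
      (stdGaussian (EE n)).real {g | t - 1 / (4 * t) ≤ |⟪g, w⟫_ℝ|} ≤ 1 := by
  have ht0 : 0 < t := by linarith
  have hδ : 1 / (4 * t) ≤ 1 / 80 := by
    apply one_div_le_one_div_of_le <;> linarith
  have hδ0 : 0 < 1 / (4 * t) := by positivity
  have htδ : t * (1 / (4 * t)) = 1 / 4 := by field_simp
  set δ := 1 / (4 * t) with hδdef
  have ha : 0 < t - δ := by linarith
  have h1 := gauss_two_tail w hw ha
  have h2 : Real.exp (t ^ 2 / 2) * Real.exp (-((t - δ) ^ 2 / 2)) ≤ 2 := by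
    rw [← Real.exp_add]
    have h3 : t ^ 2 / 2 + -((t - δ) ^ 2 / 2) ≤ 1 / 2 := by nlinarith [sq_nonneg δ]
    refine (Real.exp_le_exp.2 h3).trans ?_
    have h4 : Real.exp (1 / 2) ^ 2 ≤ 2 ^ 2 := by
      rw [← Real.exp_nat_mul]
      have := Real.exp_one_lt_d9
      norm_num at this ⊢
      linarith
    exact le_of_sq_le_sq h4 (by norm_num) |>.trans le_rfl
  calc t * Real.exp (t ^ 2 / 2) / 4 *
        (stdGaussian (EE n)).real {g | t - δ ≤ |⟪g, w⟫_ℝ|}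
      ≤ t * Real.exp (t ^ 2 / 2) / 4 * (Real.exp (-((t - δ) ^ 2 / 2)) / (t - δ)) := by gcongr
    _ = t / (4 * (t - δ)) * (Real.exp (t ^ 2 / 2) * Real.exp (-((t - δ) ^ 2 / 2))) := by
        field_simp
    _ ≤ t / (4 * (t - δ)) * 2 := by gcongr
    _ ≤ 1 := by
        rw [div_mul_eq_mul_div, div_le_one (by positivity)]
        linarith

/-- estimate (3) -/
lemma geo_pair {n : ℕ} {t : ℝ} (ht : 20 ≤ t) (w w' : EE n) (θ : ℝ) (hw : ‖w‖ ≤ 1)
    (hw' : ‖w'‖ ≤ 1) (hθ : 0 ≤ θ) (hθw : θ ≤ ‖w - w'‖) :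
    t * Real.exp (t ^ 2 / 2) / 4 *
      (stdGaussian (EE n)).real {g | 2 * (t - 1 / (4 * t)) ≤ ⟪g, w + w'⟫_ℝ} ≤
        t * Real.exp (-(t ^ 2 * θ ^ 2 / 8)) := by
  have ht0 : 0 < t := by linarith
  have hδ0 : 0 < 1 / (4 * t) := by positivity
  have htδ : t * (1 / (4 * t)) = 1 / 4 := by field_simp
  set δ := 1 / (4 * t) with hδdef
  have hθ2 : θ ≤ 2 := hθw.trans ((norm_sub_le _ _).trans (by linarith))
  set a := θ ^ 2 / 4 with ha
  have ha0 : 0 ≤ a := by positivity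
  have ha1 : a ≤ 1 := by rw [ha]; nlinarith
  have hv : ‖w + w'‖ ^ 2 ≤ 4 - 4 * a := by
    have h1 := parallelogram_law_with_norm ℝ w w'
    have h2 : θ ^ 2 ≤ ‖w - w'‖ ^ 2 := by gcongr
    have h3 : ‖w‖ ^ 2 ≤ 1 := by nlinarith [norm_nonneg w]
    have h4 : ‖w'‖ ^ 2 ≤ 1 := by nlinarith [norm_nonneg w']
    rw [ha]; nlinarith
  have hμ : 0 ≤ t / 2 * (1 + a) := by positivity
  have h1 := gauss_chernoff (w + w') (2 * (t - δ)) hμ
  have h2 : t ^ 2 / 2 + (-(t / 2 * (1 + a) * (2 * (t - δ))) +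
      (t / 2 * (1 + a)) ^ 2 * ‖w + w'‖ ^ 2 / 2) ≤ 1 + -(t ^ 2 * θ ^ 2 / 8) := by
    have h3 : (t / 2 * (1 + a)) ^ 2 * ‖w + w'‖ ^ 2 / 2 ≤
        (t / 2 * (1 + a)) ^ 2 * (4 - 4 * a) / 2 := by gcongr
    have h4 : (t / 2 * (1 + a)) ^ 2 * (4 - 4 * a) / 2 ≤ t ^ 2 / 2 * (1 + a) := by
      have h5 : (t / 2 * (1 + a)) ^ 2 * (4 - 4 * a) / 2 =
          t ^ 2 / 2 * (1 + a) * (1 - a ^ 2) := by ring
      rw [h5]
      have h6 : 0 ≤ t ^ 2 / 2 * (1 + a) := by positivity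
      nlinarith [mul_nonneg h6 (sq_nonneg a)]
    have h7 : t / 2 * (1 + a) * (2 * (t - δ)) = t ^ 2 * (1 + a) - (t * δ) * (1 + a) := by ring
    have h8 : t ^ 2 * θ ^ 2 / 8 = t ^ 2 * a / 2 := by rw [ha]; ring
    rw [h7, htδ, h8]
    nlinarith
  have h9 : Real.exp 1 ≤ 4 := by
    have := Real.exp_one_lt_d9
    linarith
  calc t * Real.exp (t ^ 2 / 2) / 4 *
        (stdGaussian (EE n)).real {g | 2 * (t - δ) ≤ ⟪g, w + w'⟫_ℝ}
      ≤ t * Real.exp (t ^ 2 / 2) / 4 * Real.exp (-(t / 2 * (1 + a) * (2 * (t - δ))) +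
          (t / 2 * (1 + a)) ^ 2 * ‖w + w'‖ ^ 2 / 2) := by gcongr
    _ = t / 4 * Real.exp (t ^ 2 / 2 + (-(t / 2 * (1 + a) * (2 * (t - δ))) +
          (t / 2 * (1 + a)) ^ 2 * ‖w + w'‖ ^ 2 / 2)) := by
        rw [Real.exp_add (t ^ 2 / 2)]; ring
    _ ≤ t / 4 * Real.exp (1 + -(t ^ 2 * θ ^ 2 / 8)) := by gcongr
    _ = t / 4 * Real.exp 1 * Real.exp (-(t ^ 2 * θ ^ 2 / 8)) := by
        rw [Real.exp_add]; ring
    _ ≤ t / 4 * 4 * Real.exp (-(t ^ 2 * θ ^ 2 / 8)) := by gcongr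
    _ = t * Real.exp (-(t ^ 2 * θ ^ 2 / 8)) := by ring

lemma far_small {n : ℕ} (hn : 100 ≤ n) :
    Real.exp (-(1.85 ^ 2 * n / 4)) * √2 ^ n ≤ 1 / (200 * n) := by
  have hn' : (100 : ℝ) ≤ n := by exact_mod_cast hn
  have h1 : √2 ≤ Real.exp 0.35 := by
    rw [Real.sqrt_le_iff]
    refine ⟨(Real.exp_pos _).le, ?_⟩
    rw [← Real.exp_nat_mul, ← Real.log_le_iff_le_exp (by norm_num)]
    have := Real.log_two_lt_d9
    norm_num at this ⊢
    linarith
  have h2 : √2 ^ n ≤ Real.exp (n * 0.35) := by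
    rw [Real.exp_nat_mul]; gcongr
  have h3 : ((n : ℝ) / 2) ^ 3 / (Nat.factorial 3 : ℕ) ≤ Real.exp (n / 2) :=
    Real.pow_div_factorial_le_exp _ (by positivity) 3
  have h4 : 200 * (n : ℝ) ≤ Real.exp (n / 2) := by
    refine le_trans ?_ h3
    norm_num [Nat.factorial]
    have : (10000 : ℝ) ≤ (n : ℝ) ^ 2 := by nlinarith
    nlinarith
  calc Real.exp (-(1.85 ^ 2 * n / 4)) * √2 ^ n
      ≤ Real.exp (-(1.85 ^ 2 * n / 4)) * Real.exp (n * 0.35) := by gcongr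
    _ = Real.exp (-(1.85 ^ 2 * n / 4) + n * 0.35) := by rw [Real.exp_add]
    _ ≤ Real.exp (-(n / 2)) := by
        apply Real.exp_le_exp.2
        norm_num
        linarith
    _ = 1 / Real.exp (n / 2) := by rw [Real.exp_neg, one_div]
    _ ≤ 1 / (200 * n) := by
        apply one_div_le_one_div_of_le (by positivity) h4

/-- estimate (2) -/
lemma geo_region {n : ℕ} (hn : 100 ≤ n) {t : ℝ} (ht : 20 ≤ t) (htn : t ≤ n) (e : EE n)
    (he : ‖e‖ = 1) {ρ : ℝ} (hρ : 31 / 32 ≤ ρ) (hρ1 : ρ ≤ 1) :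
    1 / 500 * Real.exp (-(2 * t ^ 2 * (1 - ρ))) ≤ t * Real.exp (t ^ 2 / 2) / 4 *
      (stdGaussian (EE n)).real {g | t / ρ + 1 / (2 * t) ≤ ⟪g, e⟫_ℝ ∧
        ‖g - (t / ρ) • e‖ ^ 2 < 1.85 ^ 2 * n} := by
  have ht0 : 0 < t := by linarith
  have hρ0 : 0 < ρ := by linarith
  have hn' : (100 : ℝ) ≤ n := by exact_mod_cast hn
  set r := t / ρ with hr
  have hr0 : 0 < r := by positivity
  have hrρ : r * ρ = t := by rw [hr]; field_simp
  have hab : r + 1 / (2 * t) ≤ r + 1 / t := by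
    have : 1 / (2 * t) ≤ 1 / t := by apply one_div_le_one_div_of_le <;> linarith
    linarith
  have h1 := gauss_slab e he (a := r + 1 / (2 * t)) (by positivity) hab
  have h2 := gauss_far e he hr0.le (1.85 ^ 2 * n)
  set γ := stdGaussian (EE n) with hγ
  set R : Set (EE n) := {g | r + 1 / (2 * t) ≤ ⟪g, e⟫_ℝ ∧ ‖g - r • e‖ ^ 2 < 1.85 ^ 2 * n} with hR
  have h3 : γ.real {g | r + 1 / (2 * t) ≤ ⟪g, e⟫_ℝ ∧ ⟪g, e⟫_ℝ ≤ r + 1 / t} ≤
      γ.real R + γ.real {g | r ≤ ⟪g, e⟫_ℝ ∧ 1.85 ^ 2 * n ≤ ‖g - r • e‖ ^ 2} := by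
    refine le_trans (measureReal_mono ?_) (measureReal_union_le _ _)
    rintro g ⟨hg1, -⟩
    by_cases hg : ‖g - r • e‖ ^ 2 < 1.85 ^ 2 * n
    · exact Or.inl ⟨hg1, hg⟩
    · refine Or.inr ⟨?_, not_lt.1 hg⟩
      have : 0 < 1 / (2 * t) := by positivity
      linarith
  -- slab lower bound
  have h4 : Real.exp (-(r ^ 2 / 2)) / (48 * t) ≤
      (r + 1 / t - (r + 1 / (2 * t))) * Real.exp (-((r + 1 / t) ^ 2 / 2)) / 3 := by
    have e1 : r + 1 / t - (r + 1 / (2 * t)) = 1 / (2 * t) := by field_simp; ring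
    have e2 : r / t ≤ 32 / 31 := by
      rw [div_le_iff₀ ht0, hr, div_le_iff₀ hρ0]; nlinarith
    have e3 : (1 / t) ^ 2 ≤ 1 := by
      have : 1 / t ≤ 1 := by rw [div_le_one ht0]; linarith
      have h0 : 0 ≤ 1 / t := by positivity
      nlinarith
    have e4 : -(r ^ 2 / 2) + -2 ≤ -((r + 1 / t) ^ 2 / 2) := by
      have : (r + 1 / t) ^ 2 = r ^ 2 + 2 * (r / t) + (1 / t) ^ 2 := by ring
      rw [this]; linarith
    have e5 : 1 / 8 ≤ Real.exp (-2) := by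
      rw [Real.exp_neg, ← one_div]
      apply one_div_le_one_div_of_le (Real.exp_pos _)
      have h := Real.exp_one_lt_d9
      have h0 := Real.exp_pos 1
      have : Real.exp 2 = Real.exp 1 * Real.exp 1 := by rw [← Real.exp_add]; norm_num
      rw [this]; nlinarith
    have e6 : Real.exp (-(r ^ 2 / 2)) * (1 / 8) ≤ Real.exp (-((r + 1 / t) ^ 2 / 2)) := by
      refine le_trans ?_ (Real.exp_le_exp.2 e4)
      rw [Real.exp_add]; gcongr
    rw [e1]
    calc Real.exp (-(r ^ 2 / 2)) / (48 * t)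
        = 1 / (2 * t) * (Real.exp (-(r ^ 2 / 2)) * (1 / 8)) / 3 := by field_simp; ring
      _ ≤ _ := by gcongr
  -- far upper bound
  have h5 : Real.exp (-(r ^ 2 / 2) - 1.85 ^ 2 * n / 4) * √2 ^ n ≤
      Real.exp (-(r ^ 2 / 2)) / (200 * t) := by
    rw [sub_eq_add_neg, Real.exp_add, mul_assoc]
    have e1 := far_small hn
    have e2 : 1 / (200 * (n : ℝ)) ≤ 1 / (200 * t) := by
      apply one_div_le_one_div_of_le <;> linarith
    calc Real.exp (-(r ^ 2 / 2)) * (Real.exp (-(1.85 ^ 2 * n / 4)) * √2 ^ n)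
        ≤ Real.exp (-(r ^ 2 / 2)) * (1 / (200 * t)) := by
          gcongr; exact e1.trans e2
      _ = _ := by ring
  have h6 : Real.exp (-(r ^ 2 / 2)) / (125 * t) ≤ γ.real R := by
    have e1 : Real.exp (-(r ^ 2 / 2)) / (125 * t) ≤
        Real.exp (-(r ^ 2 / 2)) / (48 * t) - Real.exp (-(r ^ 2 / 2)) / (200 * t) := by
      have h0 : 0 ≤ Real.exp (-(r ^ 2 / 2)) / t := by positivity
      have a1 : Real.exp (-(r ^ 2 / 2)) / (125 * t) = Real.exp (-(r ^ 2 / 2)) / t / 125 := by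
        field_simp
      have a2 : Real.exp (-(r ^ 2 / 2)) / (48 * t) = Real.exp (-(r ^ 2 / 2)) / t / 48 := by
        field_simp
      have a3 : Real.exp (-(r ^ 2 / 2)) / (200 * t) = Real.exp (-(r ^ 2 / 2)) / t / 200 := by
        field_simp
      rw [a1, a2, a3]; linarith
    linarith
  have h7 : -(2 * t ^ 2 * (1 - ρ)) ≤ t ^ 2 / 2 + -(r ^ 2 / 2) := by
    have e1 : t ^ 2 = r ^ 2 * ρ ^ 2 := by rw [← hrρ]; ring
    rw [e1]
    have e2 : 0 ≤ r ^ 2 * (1 - ρ) := by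
      have : 0 ≤ 1 - ρ := by linarith
      positivity
    have e3 : 0 ≤ 4 * ρ ^ 2 - 1 - ρ := by nlinarith
    nlinarith [mul_nonneg e2 e3]
  calc 1 / 500 * Real.exp (-(2 * t ^ 2 * (1 - ρ)))
      ≤ 1 / 500 * Real.exp (t ^ 2 / 2 + -(r ^ 2 / 2)) := by gcongr
    _ = t * Real.exp (t ^ 2 / 2) / 4 * (Real.exp (-(r ^ 2 / 2)) / (125 * t)) := by
        rw [Real.exp_add]; field_simp; ring
    _ ≤ _ := by gcongr

open Classical in
theorem exists_geo {n : ℕ} (hn : 100 ≤ n) {t : ℝ} (ht : 2 * √n ≤ t) (htn : t ≤ n) {p : ℝ}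
    (hp : 0 < p) :
    ∃ (m : ℕ) (u : Fin m → EE n) (π : Fin m → ℝ), (∀ j, 0 ≤ π j) ∧ (∀ j, π j ≤ p) ∧
      (∀ j, ‖u j‖ ≤ 2 * t) ∧
      (∀ w : EE n, ‖w‖ ≤ 1 → ∑ j with t < |⟪u j, w⟫_ℝ|, π j ≤ 1) ∧
      (∀ w : EE n, ‖w‖ ≤ 1 → 1 - √n / (16 * t) ≤ ‖w‖ →
        1 / 500 * Real.exp (-(2 * t ^ 2 * (1 - ‖w‖))) ≤
          ∑ j with t < ⟪u j, w⟫_ℝ ∧ ‖u j - t • w‖ ≤ 2 * √n, π j) ∧
      (∀ (w w' : EE n) (θ : ℝ), ‖w‖ ≤ 1 → ‖w'‖ ≤ 1 → 0 ≤ θ → θ ≤ ‖w - w'‖ →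
        ∑ j with t < ⟪u j, w⟫_ℝ ∧ t < ⟪u j, w'⟫_ℝ, π j ≤ t * Real.exp (-(t ^ 2 * θ ^ 2 / 8))) := by
  have hn' : (100 : ℝ) ≤ n := by exact_mod_cast hn
  have hs : (10 : ℝ) ≤ √n := by
    rw [Real.le_sqrt (by norm_num) (by positivity)]; linarith
  have ht20 : 20 ≤ t := by linarith
  have ht0 : 0 < t := by linarith
  set lam := t * Real.exp (t ^ 2 / 2) / 4 with hlam
  have hlam0 : 0 < lam := by positivity
  set δ := 1 / (4 * t) with hδ
  have hδ0 : 0 < δ := by positivity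
  have hδ1 : δ ≤ 1 / 80 := by
    apply one_div_le_one_div_of_le <;> linarith
  set ε := min δ (p / lam) with hε
  have hε0 : 0 < ε := lt_min hδ0 (by positivity)
  obtain ⟨m, u, C, hu, hCm, hCb, hCd, hCc⟩ := exists_cells (n := n) (2 * t) hε0
  have hCδ : ∀ j, C j ⊆ ball (u j) δ := fun j =>
    (hCb j).trans (ball_subset_ball (min_le_left _ _))
  set γ := stdGaussian (EE n) with hγ
  refine ⟨m, u, fun j => lam * γ.real (C j), ?_, ?_, hu, ?_, ?_, ?_⟩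
  · intro j
    exact mul_nonneg hlam0.le measureReal_nonneg
  · intro j
    have h1 : γ.real (C j) ≤ ε :=
      (measureReal_mono (hCb j)).trans (gauss_ball (by omega) (u j) hε0.le)
    calc lam * γ.real (C j) ≤ lam * (p / lam) := by
          gcongr; exact h1.trans (min_le_right _ _)
      _ = p := by field_simp
  · intro w hw
    rw [← Finset.mul_sum]
    refine le_trans ?_ (geo_tail ht20 w hw)
    gcongr
    refine sum_cells_le γ C hCm hCd _ _ fun j hj g hg => ?_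
    have h1 := (Finset.mem_filter.1 hj).2
    have h2 := inner_close (hCδ j hg) hw
    have h3 := abs_sub_abs_le_abs_sub ⟪u j, w⟫_ℝ ⟪g, w⟫_ℝ
    rw [abs_sub_comm] at h3
    change t - δ ≤ _
    linarith
  · intro w hw hw1
    rw [← Finset.mul_sum]
    set ρ := ‖w‖ with hρdef
    have hq : √n / (16 * t) ≤ 1 / 32 := by
      rw [div_le_iff₀ (by positivity)]; linarith
    have hρ : 31 / 32 ≤ ρ := by linarith
    have hρ0 : 0 < ρ := by linarith
    set e : EE n := ρ⁻¹ • w with hedef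
    have he : ‖e‖ = 1 := by
      rw [hedef, norm_smul, norm_inv, Real.norm_of_nonneg hρ0.le]
      exact inv_mul_cancel₀ hρ0.ne'
    have hwe : w = ρ • e := by
      rw [hedef, smul_smul, mul_inv_cancel₀ hρ0.ne', one_smul]
    refine le_trans (geo_region hn ht20 htn e he hρ hw) ?_
    gcongr
    refine le_sum_cells γ C _ _ ?_
    rintro g ⟨hg1, hg2⟩
    have h1 : ‖g - (t / ρ) • e‖ ≤ 1.85 * √n := by
      refine le_of_sq_le_sq ?_ (by positivity)
      rw [mul_pow, Real.sq_sqrt (by positivity)]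
      exact hg2.le
    have h2 : ‖(t / ρ) • e - t • w‖ ≤ 0.13 * √n := by
      have e1 : (t / ρ) • e - t • w = (t / ρ - t * ρ) • e := by
        rw [sub_smul, mul_smul, ← hwe]
      have e2 : 0 ≤ t / ρ - t * ρ := by
        rw [sub_nonneg, le_div_iff₀ hρ0]
        have : ρ * ρ ≤ 1 := by nlinarith
        nlinarith
      rw [e1, norm_smul, he, mul_one, Real.norm_of_nonneg e2, sub_le_iff_le_add,
        div_le_iff₀ hρ0]
      have e3 : t * (1 - ρ) ≤ √n / 16 := by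
        have e4 : 1 - ρ ≤ √n / (16 * t) := by linarith
        calc t * (1 - ρ) ≤ t * (√n / (16 * t)) := by gcongr
          _ = √n / 16 := by field_simp
      have e5 : 0 ≤ t * (1 - ρ) := by
        have : 0 ≤ 1 - ρ := by linarith
        positivity
      have e6 : t * (1 - ρ) * (1 + ρ) ≤ √n / 16 * 2 := by
        gcongr; linarith
      have e7 : √n * (31 / 32) ≤ √n * ρ := by gcongr
      nlinarith
    have h3 : ‖g - t • w‖ ≤ 1.98 * √n := by
      have := norm_add_le (g - (t / ρ) • e) ((t / ρ) • e - t • w)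
      rw [sub_add_sub_cancel] at this
      linarith
    have h4 : ‖g‖ ≤ 2 * t := by
      have e1 := norm_add_le (g - t • w) (t • w)
      rw [sub_add_cancel, norm_smul, Real.norm_of_nonneg ht0.le] at e1
      have e2 : t * ρ ≤ t * 1 := by gcongr
      linarith
    obtain ⟨j, hj⟩ := hCc g h4
    refine ⟨j, Finset.mem_filter.2 ⟨Finset.mem_univ _, ?_, ?_⟩, hj⟩
    · have e1 := inner_close (hCδ j hj) hw
      have e2 : ⟪g, w⟫_ℝ = ρ * ⟪g, e⟫_ℝ := by
        conv_lhs => rw [hwe]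
        rw [real_inner_smul_right]
      have e3 : ρ * (t / ρ + 1 / (2 * t)) ≤ ρ * ⟪g, e⟫_ℝ := by gcongr
      have e4 : ρ * (t / ρ + 1 / (2 * t)) = t + 2 * ρ * δ := by
        rw [hδ]; field_simp; ring
      have e5 : δ < 2 * ρ * δ := by nlinarith
      have e6 := (abs_le.1 e1).2
      linarith
    · have e1 : ‖u j - g‖ < δ := by
        have := hCδ j hj
        rw [mem_ball, dist_comm, dist_eq_norm] at this
        exact this
      have e2 := norm_add_le (u j - g) (g - t • w)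
      rw [sub_add_sub_cancel] at e2
      linarith
  · intro w w' θ hw hw' hθ hθw
    rw [← Finset.mul_sum]
    refine le_trans ?_ (geo_pair ht20 w w' θ hw hw' hθ hθw)
    gcongr
    refine sum_cells_le γ C hCm hCd _ _ fun j hj g hg => ?_
    obtain ⟨h1, h1'⟩ := (Finset.mem_filter.1 hj).2
    have h2 := (abs_le.1 (inner_close (hCδ j hg) hw)).1
    have h3 := (abs_le.1 (inner_close (hCδ j hg) hw')).1
    change 2 * (t - δ) ≤ _
    rw [inner_add_right]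
    linarith

end Crest.Agent.R225
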