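import Crest.Agent.R225.LDefs

/-!
Row 225, lower bound: elementary estimates for the standard Gaussian measure on Euclidean space.
-/

set_option autoImplicit false

open MeasureTheory ProbabilityTheory Metric Set
open scoped InnerProductSpace

namespace Crest.Agent.R225

lemma gauss_law {n : ℕ} (w : EE n) :
    (stdGaussian (EE n)).map (fun g => ⟪g, w⟫_ℝ) = gaussianReal 0 (‖w‖ ^ 2).toNNReal := by
  have h := IsGaussian.map_eq_gaussianReal (μ := stdGaussian (EE n)) (innerSL ℝ w)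
  rw [integral_strongDual_stdGaussian, variance_dual_stdGaussian, innerSL_apply_norm] at h
  rw [← h]
  congr 1
  funext g
  simp [real_inner_comm]

lemma gauss_real_preimage {n : ℕ} (w : EE n) {s : Set ℝ} (hs : MeasurableSet s) :
    (stdGaussian (EE n)).real {g | ⟪g, w⟫_ℝ ∈ s} = (gaussianReal 0 (‖w‖ ^ 2).toNNReal).real s := by
  rw [← gauss_law, map_measureReal_apply (by fun_prop) hs]
  rfl

lemma std_real_eq (s : Set ℝ) :
    (gaussianReal 0 1).real s = ∫ x in s, gaussianPDFReal 0 1 x := by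
  rw [Measure.real, gaussianReal_apply_eq_integral 0 one_ne_zero, ENNReal.toReal_ofReal]
  exact integral_nonneg fun x => gaussianPDFReal_nonneg _ _ _

lemma std_pdf (x : ℝ) : gaussianPDFReal 0 1 x = (√(2 * Real.pi))⁻¹ * Real.exp (-(x ^ 2 / 2)) := by
  simp [gaussianPDFReal, neg_div]

lemma two_le_sqrt_two_pi : 2 ≤ √(2 * Real.pi) := by
  apply Real.le_sqrt_of_sq_le
  nlinarith [Real.pi_gt_three]

lemma sqrt_two_pi_le_three : √(2 * Real.pi) ≤ 3 := by
  rw [Real.sqrt_le_iff]
  constructor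
  · norm_num
  · nlinarith [Real.pi_lt_four]

lemma std_one_tail {a : ℝ} (ha : 0 < a) :
    (gaussianReal 0 1).real (Ici a) ≤ Real.exp (-(a ^ 2 / 2)) / a / 2 := by
  rw [std_real_eq, integral_Ici_eq_integral_Ioi]
  have h1 : ∫ x in Ioi a, gaussianPDFReal 0 1 x
      ≤ ∫ x in Ioi a, (1 / 2 * Real.exp (a ^ 2 / 2)) * Real.exp (-a * x) := by
    refine setIntegral_mono (integrable_gaussianPDFReal 0 1).integrableOn
      ((integrableOn_exp_mul_Ioi (neg_lt_zero.2 ha) a).const_mul _) fun x => ?_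
    rw [std_pdf, mul_assoc, ← Real.exp_add]
    refine mul_le_mul ?_ (Real.exp_le_exp.2 (by nlinarith [sq_nonneg (x - a)]))
      (Real.exp_pos _).le (by norm_num)
    rw [one_div]
    exact inv_anti₀ (by norm_num) two_le_sqrt_two_pi
  refine h1.trans (le_of_eq ?_)
  rw [integral_const_mul, integral_exp_mul_Ioi (neg_lt_zero.2 ha)]
  have : Real.exp (-(a ^ 2 / 2)) = Real.exp (a ^ 2 / 2) * Real.exp (-a * a) := by
    rw [← Real.exp_add]; congr 1; ring
  rw [this]
  field_simp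

lemma std_two_tail {a : ℝ} (ha : 0 < a) :
    (gaussianReal 0 1).real {x | a ≤ |x|} ≤ Real.exp (-(a ^ 2 / 2)) / a := by
  have h1 : (gaussianReal 0 1).real (Iic (-a)) = (gaussianReal 0 1).real (Ici a) := by
    have h := gaussianReal_map_neg (μ := 0) (v := 1)
    rw [neg_zero] at h
    conv_lhs => rw [← h]
    rw [map_measureReal_apply (by fun_prop) measurableSet_Iic]
    congr 1
    ext x
    simp
  have h2 : {x : ℝ | a ≤ |x|} ⊆ Ici a ∪ Iic (-a) := by
    intro x hx
    simp only [mem_ofPred_eq, le_abs] at hx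
    rcases hx with h | h
    · exact Or.inl h
    · exact Or.inr (by simp only [mem_Iic]; linarith)
  refine (measureReal_mono h2).trans ((measureReal_union_le _ _).trans ?_)
  rw [h1]
  linarith [std_one_tail ha]

lemma far_one (c : ℝ) :
    Integrable (fun x => Real.exp (c * x - c ^ 2 / 2 + (x - c) ^ 2 / 4)) (gaussianReal 0 1) ∧
    ∫ x, Real.exp (c * x - c ^ 2 / 2 + (x - c) ^ 2 / 4) ∂(gaussianReal 0 1) = √2 := by
  have key : ∀ x, gaussianPDFReal 0 1 x * Real.exp (c * x - c ^ 2 / 2 + (x - c) ^ 2 / 4)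
      = (√(2 * Real.pi))⁻¹ * Real.exp (-(1 / 4) * (x - c) ^ 2) := by
    intro x
    rw [std_pdf, mul_assoc, ← Real.exp_add]
    congr 2
    ring
  constructor
  · rw [gaussianReal_of_var_ne_zero 0 one_ne_zero,
      integrable_withDensity_iff_integrable_smul' (measurable_gaussianPDF 0 1)
        (ae_of_all _ fun x => gaussianPDF_lt_top)]
    simp only [toReal_gaussianPDF, smul_eq_mul, key]
    exact ((integrable_exp_neg_mul_sq (by norm_num : (0 : ℝ) < 1 / 4)).comp_sub_right c).const_mul _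
  · rw [integral_gaussianReal_eq_integral_smul one_ne_zero]
    simp only [smul_eq_mul, key]
    rw [integral_const_mul,
      integral_sub_right_eq_self (fun x : ℝ => Real.exp (-(1 / 4) * x ^ 2)) c, integral_gaussian]
    have h : Real.pi / (1 / 4) = 2 * (2 * Real.pi) := by ring
    have h2 : √(2 * (2 * Real.pi)) = √2 * √(2 * Real.pi) := Real.sqrt_mul (by norm_num) _
    rw [h, h2]
    have : √(2 * Real.pi) ≠ 0 := by linarith [two_le_sqrt_two_pi]
    field_simp

/-- two-sided Mills-ratio tail bound -/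
theorem gauss_two_tail {n : ℕ} (w : EE n) (hw : ‖w‖ ≤ 1) {a : ℝ} (ha : 0 < a) :
    (stdGaussian (EE n)).real {g | a ≤ |⟪g, w⟫_ℝ|} ≤ Real.exp (-(a ^ 2 / 2)) / a := by
  have hs : MeasurableSet {x : ℝ | a ≤ |x|} := measurableSet_le (by fun_prop) (by fun_prop)
  have h1 := gauss_real_preimage w hs
  simp only [mem_ofPred_eq] at h1
  rw [h1]
  have h2 := gaussianReal_map_const_mul (μ := 0) (v := 1) ‖w‖
  have h3 : (‖w‖ ^ 2).toNNReal = NNReal.mk (‖w‖ ^ 2) (sq_nonneg _) * 1 := by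
    rw [mul_one, Real.toNNReal_of_nonneg (sq_nonneg _)]
  rw [mul_zero] at h2
  rw [h3, ← h2, map_measureReal_apply (by fun_prop) hs]
  refine le_trans (measureReal_mono ?_) (std_two_tail ha)
  intro x hx
  simp only [mem_preimage, mem_ofPred_eq, abs_mul, abs_norm] at hx ⊢
  nlinarith [abs_nonneg x]

/-- Chernoff bound -/
theorem gauss_chernoff {n : ℕ} (v : EE n) (a : ℝ) {μ : ℝ} (hμ : 0 ≤ μ) :
    (stdGaussian (EE n)).real {g | a ≤ ⟪g, v⟫_ℝ} ≤ Real.exp (-(μ * a) + μ ^ 2 * ‖v‖ ^ 2 / 2) := by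
  have hint : Integrable (fun g : EE n => Real.exp (μ * ⟪g, v⟫_ℝ)) (stdGaussian (EE n)) := by
    have h := integrable_exp_mul_gaussianReal (μ := 0) (v := (‖v‖ ^ 2).toNNReal) μ
    rw [← gauss_law] at h
    exact h.comp_measurable (by fun_prop)
  refine (measure_ge_le_exp_mul_mgf (X := fun g : EE n => ⟪g, v⟫_ℝ) a hμ hint).trans (le_of_eq ?_)
  rw [mgf_gaussianReal (gauss_law v), ← Real.exp_add, Real.coe_toNNReal _ (sq_nonneg _)]
  congr 1
  ring

/-- lower bound for the mass of a slab -/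
theorem gauss_slab {n : ℕ} (e : EE n) (he : ‖e‖ = 1) {a b : ℝ} (ha : 0 ≤ a) (hab : a ≤ b) :
    (b - a) * Real.exp (-(b ^ 2 / 2)) / 3 ≤
      (stdGaussian (EE n)).real {g | a ≤ ⟪g, e⟫_ℝ ∧ ⟪g, e⟫_ℝ ≤ b} := by
  have h1 := gauss_real_preimage e (measurableSet_Icc (a := a) (b := b))
  simp only [mem_Icc] at h1
  rw [h1, he]
  simp only [one_pow, Real.toNNReal_one]
  rw [std_real_eq]
  have h2 : ∫ _x in Icc a b, Real.exp (-(b ^ 2 / 2)) / 3 ≤ ∫ x in Icc a b, gaussianPDFReal 0 1 x := by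
    refine setIntegral_mono_on (by simp) (integrable_gaussianPDFReal 0 1).integrableOn
      measurableSet_Icc fun x hx => ?_
    rw [std_pdf, div_eq_inv_mul]
    refine mul_le_mul (inv_anti₀ (by linarith [two_le_sqrt_two_pi]) sqrt_two_pi_le_three)
      (Real.exp_le_exp.2 (by nlinarith [hx.1, hx.2])) (Real.exp_pos _).le (by positivity)
  refine le_trans (le_of_eq ?_) h2
  rw [setIntegral_const, Real.volume_real_Icc_of_le hab, smul_eq_mul]
  ring

/-- the part of a half space far from the foot point is small -/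
theorem gauss_far {n : ℕ} (e : EE n) (he : ‖e‖ = 1) {r : ℝ} (hr : 0 ≤ r) (b : ℝ) :
    (stdGaussian (EE n)).real {g | r ≤ ⟪g, e⟫_ℝ ∧ b ≤ ‖g - r • e‖ ^ 2} ≤
      Real.exp (-(r ^ 2 / 2) - b / 4) * √2 ^ n := by
  let F : EE n → ℝ := fun g => Real.exp (r * ⟪g, e⟫_ℝ - r ^ 2 / 2 + ‖g - r • e‖ ^ 2 / 4)
  have hF : ∀ x : Fin n → ℝ, F (WithLp.toLp 2 x) =
      ∏ i, Real.exp (r * e i * x i - (r * e i) ^ 2 / 2 + (x i - r * e i) ^ 2 / 4) := by
    intro x
    have h1 : ∑ i, e i ^ 2 = 1 := by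
      rw [← EuclideanSpace.real_norm_sq_eq, he, one_pow]
    simp only [F]
    rw [← Real.exp_sum, EuclideanSpace.real_norm_sq_eq, PiLp.inner_apply]
    congr 1
    rw [Finset.sum_add_distrib, Finset.sum_sub_distrib, Finset.mul_sum, Finset.sum_div]
    simp_rw [mul_pow, mul_div_right_comm]
    rw [← Finset.mul_sum _ (fun i => e i ^ 2), h1]
    simp [mul_assoc]
  have hFm : Measurable F := by fun_prop
  have hFi : Integrable F (stdGaussian (EE n)) := by
    rw [← map_pi_eq_stdGaussian, integrable_map_measure hFm.aestronglyMeasurable (by fun_prop)]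
    have : F ∘ WithLp.toLp 2 = fun x : Fin n → ℝ =>
        ∏ i, Real.exp (r * e i * x i - (r * e i) ^ 2 / 2 + (x i - r * e i) ^ 2 / 4) :=
      funext hF
    rw [this]
    exact Integrable.fintype_prod (f := fun i x =>
      Real.exp (r * e i * x - (r * e i) ^ 2 / 2 + (x - r * e i) ^ 2 / 4)) fun i => (far_one _).1
  have hFint : ∫ g, F g ∂(stdGaussian (EE n)) = √2 ^ n := by
    rw [← map_pi_eq_stdGaussian, integral_map (by fun_prop) hFm.aestronglyMeasurable]
    simp_rw [hF]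
    rw [integral_fintype_prod_eq_prod (f := fun i x =>
      Real.exp (r * e i * x - (r * e i) ^ 2 / 2 + (x - r * e i) ^ 2 / 4))]
    simp [(far_one _).2]
  have h := mul_meas_ge_le_integral_of_nonneg (ae_of_all _ fun g => (Real.exp_pos _).le) hFi
    (Real.exp (r ^ 2 / 2 + b / 4))
  rw [hFint] at h
  have hsub : {g : EE n | r ≤ ⟪g, e⟫_ℝ ∧ b ≤ ‖g - r • e‖ ^ 2}
      ⊆ {g | Real.exp (r ^ 2 / 2 + b / 4) ≤ F g} := by
    rintro g ⟨h1, h2⟩
    refine Real.exp_le_exp.2 ?_
    nlinarith [mul_le_mul_of_nonneg_left h1 hr]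
  refine (measureReal_mono hsub).trans ?_
  have e1 : Real.exp (-(r ^ 2 / 2) - b / 4) = (Real.exp (r ^ 2 / 2 + b / 4))⁻¹ := by
    rw [← Real.exp_neg]; congr 1; ring
  rw [e1, le_inv_mul_iff₀ (Real.exp_pos _)]
  exact h

/-- small balls have small mass -/
theorem gauss_ball {n : ℕ} (hn : 1 ≤ n) (x : EE n) {ε : ℝ} (hε : 0 ≤ ε) :
    (stdGaussian (EE n)).real (ball x ε) ≤ ε := by
  let i : Fin n := ⟨0, hn⟩
  let e : EE n := EuclideanSpace.single i 1
  have he : ‖e‖ = 1 := by simp [e]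
  have h1 := gauss_real_preimage e (measurableSet_Icc (a := x i - ε) (b := x i + ε))
  have hsub : ball x ε ⊆ {g : EE n | ⟪g, e⟫_ℝ ∈ Icc (x i - ε) (x i + ε)} := by
    intro g hg
    have h2 : |g i - x i| ≤ ε := by
      have := PiLp.norm_apply_le (g - x) i
      rw [mem_ball, dist_eq_norm] at hg
      simp only [PiLp.sub_apply, Real.norm_eq_abs] at this
      linarith
    rw [abs_le] at h2
    simp only [e, EuclideanSpace.inner_single_right, mem_ofPred_eq, mem_Icc, one_mul, conj_trivial]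
    constructor <;> linarith [h2.1, h2.2]
  refine (measureReal_mono hsub).trans ?_
  rw [h1, he]
  simp only [one_pow, Real.toNNReal_one]
  rw [std_real_eq]
  have h2 : ∫ y in Icc (x i - ε) (x i + ε), gaussianPDFReal 0 1 y
      ≤ ∫ _y in Icc (x i - ε) (x i + ε), (1 / 2 : ℝ) := by
    refine setIntegral_mono (integrable_gaussianPDFReal 0 1).integrableOn (by simp) fun y => ?_
    rw [std_pdf]
    have a1 : (√(2 * Real.pi))⁻¹ ≤ 1 / 2 := by
      rw [one_div]; exact inv_anti₀ (by norm_num) two_le_sqrt_two_pi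
    have a2 : Real.exp (-(y ^ 2 / 2)) ≤ 1 := Real.exp_le_one_iff.2 (by nlinarith [sq_nonneg y])
    calc _ ≤ 1 / 2 * 1 := mul_le_mul a1 a2 (Real.exp_pos _).le (by norm_num)
      _ = 1 / 2 := by norm_num
  refine h2.trans (le_of_eq ?_)
  rw [setIntegral_const, Real.volume_real_Icc_of_le (by linarith), smul_eq_mul]
  ring

end Crest.Agent.R225
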