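import Crest.Agent.R225.LFix
import Crest.Agent.R225.LGauss
import Crest.Agent.R225.LAvg

/-!
Row 225, lower bound: choice of parameters and of the body.
-/

set_option autoImplicit false

open MeasureTheory Metric Set Filter
open scoped InnerProductSpace Pointwise

namespace Crest.Agent.R225

lemma sq_le_two_pow (n : ℕ) (hn : 10 ≤ n) : 3 * n ^ 2 + 9 ≤ 2 ^ n := by
  induction n, hn using Nat.le_induction with
  | base => norm_num
  | succ k hk ih => rw [pow_succ 2 k]; nlinarith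

lemma eventually_params : ∀ᶠ n : ℕ in atTop,
    320 ≤ Real.log n ∧ 10 ^ 20 * Real.log n ^ 3 ≤ Real.exp (Real.log n / 4) := by
  have hlog : Tendsto (fun n : ℕ => Real.log n) atTop atTop :=
    Real.tendsto_log_atTop.comp tendsto_natCast_atTop_atTop
  have h4 : Tendsto (fun n : ℕ => Real.log n / 4) atTop atTop :=
    hlog.atTop_div_const (by norm_num)
  have h3 := (Real.tendsto_exp_div_pow_atTop 3).comp h4
  filter_upwards [hlog.eventually_ge_atTop 320, h3.eventually_ge_atTop (64 * 10 ^ 20)]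
    with n h1 h2
  refine ⟨h1, ?_⟩
  simp only [Function.comp] at h2
  rw [le_div_iff₀ (by positivity)] at h2
  calc _ = 64 * 10 ^ 20 * (Real.log n / 4) ^ 3 := by ring
    _ ≤ _ := h2

lemma union_small (n : ℕ) (hn : 100 ≤ n) :
    (((12 * n ^ 2 + 1) ^ n : ℕ) + 1 : ℝ) ^ (4 ^ n) * (2 / 3) ^ (8 ^ n) < 1 / 16 := by
  have hn' : (100 : ℝ) ≤ n := by exact_mod_cast hn
  have h1 : (12 * (n : ℝ) ^ 2 + 1) + 1 ≤ Real.exp n := by
    have h2 := Real.pow_div_factorial_le_exp (n : ℝ) (by linarith) 3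
    have h3 : ((Nat.factorial 3 : ℕ) : ℝ) = 6 := by norm_num [Nat.factorial]
    rw [h3] at h2
    nlinarith
  have h2 : (((12 * n ^ 2 + 1) ^ n : ℕ) + 1 : ℝ) ≤ Real.exp ((n : ℝ) ^ 2) := by
    push_cast
    calc (12 * (n : ℝ) ^ 2 + 1) ^ n + 1 = (12 * (n : ℝ) ^ 2 + 1) ^ n + 1 ^ n := by rw [one_pow]
      _ ≤ ((12 * (n : ℝ) ^ 2 + 1) + 1) ^ n :=
          pow_add_pow_le (by positivity) (by positivity) (by omega)
      _ ≤ Real.exp n ^ n := pow_le_pow_left₀ (by positivity) h1 n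
      _ = _ := by rw [← Real.exp_nat_mul, sq]
  have h3 : (2 / 3 : ℝ) ≤ Real.exp (-(1 / 3)) := by linarith [Real.add_one_le_exp (-(1 / 3))]
  have h4 : (3 * (n : ℝ) ^ 2 + 9) ≤ 2 ^ n := by exact_mod_cast sq_le_two_pow n (by omega)
  calc _ ≤ Real.exp ((n : ℝ) ^ 2) ^ (4 ^ n) * Real.exp (-(1 / 3)) ^ (8 ^ n) := by gcongr
    _ = Real.exp ((4 : ℝ) ^ n * ((n : ℝ) ^ 2 - 2 ^ n / 3)) := by
        rw [← Real.exp_nat_mul, ← Real.exp_nat_mul, ← Real.exp_add]
        congr 1
        push_cast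
        have : (8 : ℝ) ^ n = 4 ^ n * 2 ^ n := by rw [← mul_pow]; norm_num
        rw [this]; ring
    _ ≤ Real.exp (-3) := by
        rw [Real.exp_le_exp]
        have h5 : (1 : ℝ) ≤ 4 ^ n := one_le_pow₀ (by norm_num)
        nlinarith
    _ < 1 / 16 := by
        rw [Real.exp_neg, inv_lt_comm₀ (Real.exp_pos _) (by norm_num)]
        have h6 := Real.exp_one_gt_d9
        have h7 : Real.exp 3 = Real.exp 1 ^ 3 := by rw [← Real.exp_nat_mul]; norm_num
        rw [h7]
        calc (1 / 16 : ℝ)⁻¹ < 2.7 ^ 3 := by norm_num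
          _ ≤ Real.exp 1 ^ 3 := by gcongr; linarith

set_option maxHeartbeats 1000000 in
/-- a slab body such that no sparse good configuration covers the unit ball -/
theorem exists_slab_body {n : ℕ} (hL : 320 ≤ Real.log n)
    (hLa : 10 ^ 20 * Real.log n ^ 3 ≤ Real.exp (Real.log n / 4)) :
    ∃ (m : ℕ) (u : Fin m → EE n) (η : Finset (Fin m)), (∀ j, ‖u j‖ ≤ 2 * (4000 * √n)) ∧
      (volume (closedBall (0 : EE n) 1)).toReal ≤ 16 * (volume (Kbig u (4000 * √n) η)).toReal ∧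
      ∀ Y : Finset (EE n), Y ⊆ grid n → Y.card ≤ 4 ^ n →
        volume (closedBall (0 : EE n) 1) ≤
          2 * volume (good (4000 * √n) (3 * Real.log n / n) (n * Real.log n / 16) Y) →
        ¬ ∀ y : EE n, ‖y‖ ≤ 1 → ∃ x ∈ Y, y - x ∈ Kbig u (4000 * √n) η := by
  classical
  have hn0 : (0 : ℝ) < n := by
    rcases Nat.eq_zero_or_pos n with h | h
    · subst h; norm_num at hL
    · exact_mod_cast h
  set L := Real.log n with hLdef
  set a := Real.exp (L / 4) with ha
  have hL3 : L ≤ L ^ 3 := by nlinarith [sq_nonneg L, mul_self_nonneg (L - 1)]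
  have ha20 : 10 ^ 20 ≤ a := by nlinarith
  have ha1 : 1 ≤ a := by linarith
  have ha0 : 0 < a := by linarith
  have han : a ^ 4 = n := by
    rw [ha, ← Real.exp_nat_mul]
    have : ((4 : ℕ) : ℝ) * (L / 4) = L := by push_cast; ring
    rw [this, hLdef, Real.exp_log hn0]
  have hsq : √(n : ℝ) = a ^ 2 := by
    rw [← han, show a ^ 4 = (a ^ 2) ^ 2 by ring, Real.sqrt_sq (by positivity)]
  have hexpL : Real.exp L = n := Real.exp_log hn0
  have ha2 : a ≤ a ^ 2 := by nlinarith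
  have ha3 : a ^ 2 ≤ a ^ 3 := pow_le_pow_right₀ ha1 (by norm_num)
  have ha4 : a ^ 3 ≤ a ^ 4 := pow_le_pow_right₀ ha1 (by norm_num)
  have hn100 : 100 ≤ n := by
    have : (100 : ℝ) ≤ n := by linarith
    exact_mod_cast this
  have hLn : L ≤ n := by nlinarith
  set t := 4000 * √(n : ℝ) with ht
  set ℓ := 10 ^ 8 * L with hℓ
  set g := √(n : ℝ) * L with hg
  set D := n * L / 16 with hD
  have htn : t ≤ n := by rw [ht, hsq, ← han]; nlinarith
  have ht0 : 0 < t := by rw [ht, hsq]; positivity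
  obtain ⟨m, u, π, h0, h1, hu, hup, hlow, hov⟩ := exists_geo hn100
    (t := t) (by rw [ht]; nlinarith [Real.sqrt_nonneg (n : ℝ)]) htn (Real.exp_pos (-(4 * ℓ)))
  have hgl : 100 * g * ℓ ^ 2 ≤ a ^ 3 / 100 := by
    have : 100 * g * ℓ ^ 2 = a ^ 2 * (10 ^ 20 * L ^ 3) / 100 := by rw [hg, hℓ, hsq]; ring
    rw [this]
    have h2 : a ^ 2 * (10 ^ 20 * L ^ 3) ≤ a ^ 2 * a := mul_le_mul_of_nonneg_left hLa (by positivity)
    nlinarith
  have hπhalf : ∀ j, π j ≤ 1 / 2 := by
    intro j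
    refine (h1 j).trans ?_
    rw [Real.exp_neg, inv_le_comm₀ (Real.exp_pos _) (by norm_num)]
    linarith [Real.add_one_le_exp (4 * ℓ)]
  have hπ1 : ∀ j, π j ≤ 1 := fun j => by linarith [hπhalf j]
  have hconf : ∀ Y : Finset (EE n), Y.card ≤ 4 ^ n →
      volume (closedBall (0 : EE n) 1) ≤ 2 * volume (good t (3 * L / n) D Y) →
      bpr π (fun η => ∀ y : EE n, ‖y‖ ≤ 1 → ∃ x ∈ Y, y - x ∈ Kbig u t η) ≤ (2 / 3) ^ (8 ^ n) := by
    intro Y hY hgood
    refine config_bound u π (ℓ := ℓ) (g := g) (θ := Real.exp (-(L / 8))) (θ₁ := 1 / 1000)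
      (N := 4 ^ n) (Q := ⌈Real.exp (D + 100 * g * ℓ ^ 2)⌉₊) (by linarith) (by nlinarith) ?_
      (by rw [hg, hsq]; nlinarith) ?_ h0 h1 hup hlow hov ht0 ?_ ?_ (Real.exp_pos _) (by norm_num)
      (by norm_num) ?_ ?_ ?_ ?_ (Nat.le_ceil _) Y (by exact_mod_cast hY) hgood
    · calc D ≤ n * n := by rw [hD]; nlinarith
        _ = Real.exp (L + L) := by rw [Real.exp_add, hexpL]
        _ ≤ _ := Real.exp_le_exp.2 (by linarith)
    · rw [hg, mul_pow, Real.sq_sqrt hn0.le, hD]
      nlinarith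
    · have : √(n : ℝ) / (16 * t) = 1 / 64000 := by
        rw [ht, hsq]; field_simp; norm_num
      rw [this, div_le_iff₀ hn0]
      nlinarith
    · have : 2 * t ^ 2 * (3 * L / n) = 96 * 10 ^ 6 * L := by
        rw [ht, mul_pow, Real.sq_sqrt hn0.le]; field_simp; norm_num
      rw [this, hℓ]
      linarith
    · have h2 : Real.exp (-(L / 8)) ^ 2 = a⁻¹ := by
        rw [← Real.exp_nat_mul, ha, ← Real.exp_neg]
        congr 1
        push_cast
        ring
      have h3 : t ^ 2 * Real.exp (-(L / 8)) ^ 2 / 8 = 2 * 10 ^ 6 * a ^ 3 := by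
        rw [h2, ht, hsq]; field_simp; norm_num
      rw [h3]
      calc t * Real.exp (-(2 * 10 ^ 6 * a ^ 3)) ≤ Real.exp L * Real.exp (-(2 * 10 ^ 6 * a ^ 3)) := by
            rw [hexpL]; gcongr
        _ = Real.exp (L - 2 * 10 ^ 6 * a ^ 3) := by rw [← Real.exp_add]; ring_nf
        _ ≤ _ := by
            rw [Real.exp_le_exp]
            nlinarith
    · rw [ht]; linarith
    · push_cast
      have h2 : (8 : ℝ) ^ n * (4 ^ n) ^ 2 * (3 * (1 / 1000)) ^ n = (0.384 : ℝ) ^ n := by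
        rw [← pow_mul, mul_comm n 2, pow_mul, ← mul_pow, ← mul_pow]; norm_num
      rw [h2]
      calc (0.384 : ℝ) ^ n ≤ 0.384 ^ 3 := pow_le_pow_of_le_one (by norm_num) (by norm_num) (by omega)
        _ ≤ 1 / 8 := by norm_num
    · have hQ : (⌈Real.exp (D + 100 * g * ℓ ^ 2)⌉₊ : ℝ) ≤ 2 * Real.exp (D + n) := by
        have h2 := (Nat.ceil_lt_add_one (Real.exp_pos (D + 100 * g * ℓ ^ 2)).le).le
        have h3 : Real.exp (D + 100 * g * ℓ ^ 2) ≤ Real.exp (D + n) :=
          Real.exp_le_exp.2 (by nlinarith)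
        have h4 : 1 ≤ Real.exp (D + n) := Real.one_le_exp (by positivity)
        linarith
      have he2 : (2 : ℝ) ≤ Real.exp 1 := by linarith [Real.add_one_le_exp 1]
      have h5 : ((4 : ℝ) ^ n) ^ 2 * 2000 ^ n ≤ Real.exp (15 * n) := by
        calc ((4 : ℝ) ^ n) ^ 2 * 2000 ^ n = (32000 : ℝ) ^ n := by
              rw [← pow_mul, mul_comm n 2, pow_mul, ← mul_pow]; norm_num
          _ ≤ (Real.exp 1 ^ 15) ^ n := by
              refine pow_le_pow_left₀ (by norm_num) ?_ n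
              calc (32000 : ℝ) ≤ 2 ^ 15 := by norm_num
                _ ≤ _ := by gcongr
          _ = _ := by rw [← Real.exp_nat_mul, ← Real.exp_nat_mul]; congr 1; push_cast; ring
      have h6 : (32 : ℝ) ≤ Real.exp (4 * n) := by
        linarith [Real.add_one_le_exp (4 * n)]
      have h7 : Real.exp (-(L / 8)) ^ n = Real.exp (-(n * L / 8)) := by
        rw [← Real.exp_nat_mul]; congr 1; ring
      have h8 : ((1 : ℝ) / 1000 / 2) ^ n = (2000 ^ n)⁻¹ := by
        rw [← inv_pow]; norm_num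
      rw [h7, h8, le_div_iff₀ (by norm_num), ← mul_le_mul_iff_left₀ (show (0 : ℝ) < 2000 ^ n by positivity),
        inv_mul_cancel₀ (by positivity)]
      calc _ = (⌈Real.exp (D + 100 * g * ℓ ^ 2)⌉₊ : ℝ) * 16 * (((4 : ℝ) ^ n) ^ 2 * 2000 ^ n) *
            Real.exp (-(n * L / 8)) := by ring
        _ ≤ (2 * Real.exp (D + n)) * 16 * Real.exp (15 * n) * Real.exp (-(n * L / 8)) := by gcongr
        _ = 32 * (Real.exp (D + n) * Real.exp (15 * n) * Real.exp (-(n * L / 8))) := by ring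
        _ ≤ Real.exp (4 * n) * (Real.exp (D + n) * Real.exp (15 * n) * Real.exp (-(n * L / 8))) := by
            gcongr
        _ = Real.exp (n * (20 - L / 16)) := by
            rw [← Real.exp_add, ← Real.exp_add, ← Real.exp_add, hD]; congr 1; ring
        _ ≤ 1 := Real.exp_le_one_iff.2 (by nlinarith)
  set V := (volume (closedBall (0 : EE n) 1)).toReal with hV
  have hV0 : 0 < V := ENNReal.toReal_pos (measure_closedBall_pos _ _ one_pos).ne'
    measure_closedBall_lt_top.ne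
  have hbig : 1 / 16 ≤ bpr π fun η => V ≤ 16 * (volume (Kbig u t η)).toReal := by
    have h2 := bex_vol_ge u π h0 hπhalf hup
    have h3 : bex π (fun η => (volume (Kbig u t η)).toReal) ≤
        bex π fun η => V / 16 + V * ind (V ≤ 16 * (volume (Kbig u t η)).toReal) := by
      refine bex_mono h0 hπ1 fun η => ?_
      by_cases h : V ≤ 16 * (volume (Kbig u t η)).toReal
      · rw [ind_of _ h]
        have : (volume (Kbig u t η)).toReal ≤ V :=
          ENNReal.toReal_mono measure_closedBall_lt_top.ne (measure_mono (Kbig_subset u t η))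
        linarith
      · rw [ind_of_not _ h]
        linarith [not_le.1 h]
    rw [bex_add, bex_const, bex_const_mul] at h3
    change _ ≤ V / 16 + V * bpr π _ at h3
    by_contra hc
    have hc' := not_le.1 hc
    nlinarith
  set C := ((grid n).powerset.filter fun Y => Y.card ≤ 4 ^ n).filter fun Y =>
    volume (closedBall (0 : EE n) 1) ≤ 2 * volume (good t (3 * L / n) D Y) with hC
  have hbad : (bpr π fun η => ∃ Y ∈ C, ∀ y : EE n, ‖y‖ ≤ 1 → ∃ x ∈ Y, y - x ∈ Kbig u t η) <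
      1 / 16 := by
    refine (bpr_exists_le h0 hπ1 C _).trans_lt (lt_of_le_of_lt ?_ (union_small n hn100))
    calc _ ≤ ∑ Y ∈ C, (2 / 3 : ℝ) ^ (8 ^ n) := by
          refine Finset.sum_le_sum fun Y hY => ?_
          have h2 := Finset.mem_filter.1 hY
          exact hconf Y (Finset.mem_filter.1 h2.1).2 h2.2
      _ = C.card * (2 / 3 : ℝ) ^ (8 ^ n) := by rw [Finset.sum_const, nsmul_eq_mul]
      _ ≤ _ := by
          refine mul_le_mul_of_nonneg_right ?_ (by positivity)
          have h2 : (C.card : ℝ) ≤ ((grid n).powerset.filter fun Y => Y.card ≤ 4 ^ n).card :=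
            Nat.cast_le.2 (Finset.card_le_card (Finset.filter_subset _ _))
          have h3 := card_small_subsets_le (grid n) (4 ^ n)
          have h4 : ((grid n).card : ℝ) ≤ ((12 * n ^ 2 + 1) ^ n : ℕ) := Nat.cast_le.2 (card_grid_le n)
          refine h2.trans (le_trans (by convert h3) ?_)
          gcongr
  by_contra hcon
  push Not at hcon
  have h5 := bpr_mono h0 hπ1 (E := fun η => V ≤ 16 * (volume (Kbig u t η)).toReal)
    (F := fun η => ∃ Y ∈ C, ∀ y : EE n, ‖y‖ ≤ 1 → ∃ x ∈ Y, y - x ∈ Kbig u t η) fun η hη => by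
      obtain ⟨Y, hY1, hY2, hY3, hY4⟩ := hcon m u η hu hη
      exact ⟨Y, Finset.mem_filter.2 ⟨Finset.mem_filter.2 ⟨Finset.mem_powerset.2 hY1, hY2⟩, hY3⟩,
        hY4⟩
  linarith

end Crest.Agent.R225
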